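import Mathlib

/-! Lines over a large finite field span a small subspace, which has two disjoint
information sets. -/

namespace Vale.Agent.P194

open Finset Polynomial

theorem sum_eval_zero {k F : Type*} [Field k] [Fintype k] [Field F] (j : k →+* F) (g : F[X])
    (hg : g.natDegree < Fintype.card k - 1) : ∑ t : k, g.eval (j t) = 0 := by
  simp_rw [Polynomial.eval_eq_sum_range]
  rw [Finset.sum_comm]
  refine Finset.sum_eq_zero fun i hi => ?_
  have hi' : i < Fintype.card k - 1 := by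
    have := Finset.mem_range.mp hi
    omega
  rw [← Finset.mul_sum]
  simp_rw [← map_pow]
  rw [← map_sum, FiniteField.sum_pow_lt_card_sub_one k i hi', map_zero, mul_zero]

theorem digits_lt {q n : ℕ} (f : Fin n → ℕ) (hf : ∀ c, f c < q) :
    ∑ c, f c * q ^ (c : ℕ) < q ^ n := by
  have := (finFunctionFinEquiv (fun c => (⟨f c, hf c⟩ : Fin q))).isLt
  rwa [finFunctionFinEquiv_apply] at this

theorem pow_period {k : Type*} [Field k] [Fintype k] {q N : ℕ} (hk : Fintype.card k = q ^ N)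
    (t : k) (a i : ℕ) : t ^ q ^ (a + N * i) = t ^ q ^ a := by
  induction i with
  | zero => simp
  | succ i ih =>
    rw [show a + N * (i + 1) = (a + N * i) + N by ring, pow_add q, pow_mul, ih, ← hk,
      FiniteField.pow_card]

theorem good_of_empty {k F : Type*} [Field k] [Fintype k] [Field F] (p : ℕ) [Fact p.Prime]
    [CharP k p] [CharP F p] (j : k →+* F) (w0 N m : ℕ) (hk : Fintype.card k = (p ^ w0) ^ (N + 1))
    (hm : m ≤ p ^ w0) (h2 : 2 ≤ p ^ w0) (d : Fin (N + 1) → Fin m → ℕ)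
    (hd : ∀ c i, d c i < p ^ w0)
    (c0 : Fin (N + 1)) (h0 : ∀ i, d c0 i = 0) (u w : F) :
    ∑ t : k, (u + j t * w) ^
      (∑ i : Fin m, (∑ c : Fin (N + 1), d c i * (p ^ w0) ^ (c : ℕ)) *
        ((p ^ w0) ^ (N + 1)) ^ (i : ℕ)) = 0 := by
  set q := p ^ w0 with hq
  set r : Fin (N + 1) := Fin.last N - c0 with hr
  have hinj : Function.Injective (fun t : k => t ^ q ^ (r : ℕ)) := by
    intro a b hab
    have := (iterateFrobenius k p (w0 * r)).injective
      (a₁ := a) (a₂ := b) (by simpa [iterateFrobenius_def, pow_mul] using hab)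
    exact this
  have hbij := Finite.injective_iff_bijective.mp hinj
  rw [← Function.Bijective.sum_comp hbij]
  let g : F[X] := ∏ i : Fin m, ∏ c : Fin (N + 1),
    (C (u ^ q ^ ((c : ℕ) + (N + 1) * i)) +
      X ^ (q ^ ((c + r : Fin (N + 1)) : ℕ)) * C (w ^ q ^ ((c : ℕ) + (N + 1) * i))) ^ d c i
  have hev : ∀ t : k, (u + j (t ^ q ^ (r : ℕ)) * w) ^
      (∑ i : Fin m, (∑ c : Fin (N + 1), d c i * q ^ (c : ℕ)) * (q ^ (N + 1)) ^ (i : ℕ)) =
      g.eval (j t) := by
    intro t
    simp only [g, Polynomial.eval_prod, Polynomial.eval_pow, Polynomial.eval_add,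
      Polynomial.eval_mul, Polynomial.eval_C, Polynomial.eval_X]
    rw [← Finset.prod_pow_eq_pow_sum]
    refine Finset.prod_congr rfl fun i _ => ?_
    rw [Finset.sum_mul, ← Finset.prod_pow_eq_pow_sum]
    refine Finset.prod_congr rfl fun c _ => ?_
    have e1 : d c i * q ^ (c : ℕ) * (q ^ (N + 1)) ^ (i : ℕ) =
        q ^ ((c : ℕ) + (N + 1) * i) * d c i := by ring
    rw [e1, pow_mul]
    congr 1
    have e2 : q ^ ((c : ℕ) + (N + 1) * i) = p ^ (w0 * ((c : ℕ) + (N + 1) * i)) := by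
      rw [hq, ← pow_mul]
    have e4 : ∀ x y : F, (x + y) ^ q ^ ((c : ℕ) + (N + 1) * i) =
        x ^ q ^ ((c : ℕ) + (N + 1) * i) + y ^ q ^ ((c : ℕ) + (N + 1) * i) := by
      intro x y
      rw [e2, add_pow_char_pow]
    rw [e4, mul_pow, ← map_pow, ← map_pow, ← pow_mul t, ← pow_add]
    congr 3
    have e3 : (r : ℕ) + ((c : ℕ) + (N + 1) * i) =
        ((c + r : Fin (N + 1)) : ℕ) + (N + 1) * (((c : ℕ) + r) / (N + 1) + i) := by
      rw [Fin.val_add]
      have := Nat.mod_add_div ((c : ℕ) + r) (N + 1)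
      nlinarith
    rw [e3, pow_period hk]
  simp_rw [hev]
  apply sum_eval_zero
  have hdeg : g.natDegree ≤ ∑ i : Fin m, ∑ c : Fin (N + 1),
      d c i * q ^ ((c + r : Fin (N + 1)) : ℕ) := by
    refine (natDegree_prod_le _ _).trans (Finset.sum_le_sum fun i _ => ?_)
    refine (natDegree_prod_le _ _).trans (Finset.sum_le_sum fun c _ => ?_)
    refine natDegree_pow_le.trans (Nat.mul_le_mul_left _ ?_)
    refine (natDegree_add_le _ _).trans (max_le (by simp) ?_)
    refine (natDegree_mul_C_le _ _).trans ?_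
    simp
  have hrow : ∀ i : Fin m, ∑ c : Fin (N + 1), d c i * q ^ ((c + r : Fin (N + 1)) : ℕ) ≤
      q ^ N - 1 := by
    intro i
    rw [← Equiv.sum_comp (Equiv.subRight r)]
    simp only [Equiv.subRight_apply, sub_add_cancel]
    rw [Fin.sum_univ_castSucc]
    have : Fin.last N - r = c0 := by rw [hr]; abel
    rw [this, h0, zero_mul, add_zero]
    have := digits_lt (q := q) (fun c : Fin N => d (c.castSucc - r) i) (fun c => hd _ _)
    simp only [Fin.val_castSucc]
    omega
  have h3 : g.natDegree ≤ m * (q ^ N - 1) := by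
    refine hdeg.trans ((Finset.sum_le_sum fun i _ => hrow i).trans ?_)
    simp
  rw [hk, pow_succ]
  have h4 : 1 ≤ q ^ N := Nat.one_le_pow _ _ (by omega)
  obtain ⟨y, hy⟩ := Nat.exists_eq_add_of_le h4
  rw [hy] at h3 ⊢
  have h5 : m * (1 + y - 1) ≤ q * y := by
    rw [Nat.add_sub_cancel_left]; exact Nat.mul_le_mul_right _ hm
  have h6 : (1 + y) * q = q + q * y := by ring
  omega

theorem vanish {F : Type*} [Field F] [Fintype F] [DecidableEq F] (γ : Fˣ) (G : Finset ℕ)
    (hG : ∀ b ∈ G, b < orderOf γ) (lg : Fˣ → ℕ) (hlg : ∀ s, γ ^ lg s = s) (c : ℕ) (f : Fˣ → F)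
    (hsupp : ∀ s, f s ≠ 0 → c ≤ lg s ∧ lg s < c + G.card)
    (horth : ∀ b ∈ G, ∑ s, f s * (s : F) ^ b = 0) : f = 0 := by
  let g : F[X] := ∑ s, monomial (lg s - c) (f s)
  have hinj : Set.InjOn (fun b => ((γ ^ b : Fˣ) : F)) G := by
    intro a ha b hb hab
    exact pow_injOn_Iio_orderOf (hG a ha) (hG b hb) (Units.ext hab)
  have hg : g = 0 := by
    refine Polynomial.eq_zero_of_degree_lt_of_eval_finset_eq_zero
      (G.image fun b => ((γ ^ b : Fˣ) : F)) ?_ ?_
    · rw [Finset.card_image_of_injOn hinj]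
      refine (Polynomial.degree_sum_le _ _).trans_lt ?_
      rw [Finset.sup_lt_iff (WithBot.bot_lt_coe _)]
      intro s _
      by_cases hs : f s = 0
      · simp only [hs, map_zero, degree_zero]; exact WithBot.bot_lt_coe _
      · rw [degree_monomial _ hs]
        have := hsupp s hs
        exact_mod_cast (by omega : lg s - c < G.card)
    · intro x hx
      obtain ⟨b, hb, rfl⟩ := Finset.mem_image.mp hx
      have hne : (((γ ^ b : Fˣ) : F)) ^ c ≠ 0 := pow_ne_zero _ (Units.ne_zero _)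
      refine (mul_eq_zero.mp ?_).resolve_right hne
      rw [← horth b hb]
      simp only [g, Polynomial.eval_finsetSum, eval_monomial, Finset.sum_mul]
      refine Finset.sum_congr rfl fun s _ => ?_
      by_cases hs : f s = 0
      · simp [hs]
      · have := hsupp s hs
        rw [mul_assoc, ← pow_add, Nat.sub_add_cancel this.1]
        congr 1
        conv_rhs => rw [← hlg s]
        simp only [Units.val_pow_eq_pow_val, ← pow_mul, mul_comm]
  funext s₀
  by_contra hs₀
  have h1 := congrArg (fun g => g.coeff (lg s₀ - c)) hg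
  simp only [g, Polynomial.finsetSum_coeff, coeff_monomial, coeff_zero] at h1
  rw [Finset.sum_eq_single s₀] at h1
  · simp at h1; exact hs₀ h1
  · intro s _ hs
    by_cases hf : f s = 0
    · simp [hf]
    · rw [if_neg]
      intro he
      have h2 := hsupp s hf
      have h3 := hsupp s₀ hs₀
      have : lg s = lg s₀ := by omega
      exact hs (by rw [← hlg s, this, hlg])
  · simp

theorem bernoulli_nat (x : ℕ) (hx : 1 ≤ x) : 3 * x ^ (2 * x + 1) ≤ (x + 1) ^ (2 * x + 1) := by
  have hx' : (0 : ℚ) < x := by exact_mod_cast hx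
  have h := one_add_mul_le_pow (a := (1 / x : ℚ)) (by
    have : (0 : ℚ) ≤ 1 / x := by positivity
    linarith) (2 * x + 1)
  have h2 : (3 : ℚ) ≤ 1 + ((2 * x + 1 : ℕ) : ℚ) * (1 / x) := by
    push_cast
    field_simp
    linarith
  have h3 : ((x : ℚ) + 1) = x * (1 + 1 / x) := by field_simp
  have h4 : (3 : ℚ) * (x : ℚ) ^ (2 * x + 1) ≤ ((x : ℚ) + 1) ^ (2 * x + 1) := by
    rw [h3, mul_pow, mul_comm]
    exact mul_le_mul_of_nonneg_left (h2.trans h) (by positivity)
  exact_mod_cast h4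

theorem many_good {k F : Type*} [Field k] [Fintype k] [Field F] (p : ℕ) [Fact p.Prime]
    [CharP k p] [CharP F p] (j : k →+* F) (w0 N m : ℕ) (hm0 : 0 < m)
    (hk : Fintype.card k = (p ^ w0) ^ (N + 1))
    (hm : m ≤ p ^ w0) (h2 : 2 ≤ p ^ w0) (hN : N = 2 * ((p ^ w0) ^ m - 1)) :
    ∃ G : Finset ℕ, (∀ b ∈ G, b < ((p ^ w0) ^ (N + 1)) ^ m - 1) ∧
      ((p ^ w0) ^ (N + 1)) ^ m - 1 ≤ 2 * G.card ∧
      ∀ b ∈ G, ∀ u w : F, ∑ t : k, (u + j t * w) ^ b = 0 := by
  classical
  set q := p ^ w0 with hq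
  have : NeZero q := ⟨by omega⟩
  let e : (Fin (N + 1) → Fin m → Fin q) → ℕ := fun d =>
    (finFunctionFinEquiv fun i => finFunctionFinEquiv fun c => d c i : Fin ((q ^ (N + 1)) ^ m))
  have he : Function.Injective e := by
    intro d d' h
    have h1 := finFunctionFinEquiv.injective (Fin.ext h)
    funext c i
    exact congrFun (finFunctionFinEquiv.injective (congrFun h1 i)) c
  let bad : Finset (Fin (N + 1) → Fin m → Fin q) :=
    Fintype.piFinset fun _ => Finset.univ.erase 0
  have hbad : bad.card = (q ^ m - 1) ^ (N + 1) := by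
    simp [bad, Fintype.card_piFinset, Finset.card_erase_of_mem]
  have hall : Fintype.card (Fin (N + 1) → Fin m → Fin q) = (q ^ m) ^ (N + 1) := by simp
  refine ⟨((badᶜ).image e).erase ((q ^ (N + 1)) ^ m - 1), ?_, ?_, ?_⟩
  · intro b hb
    obtain ⟨hb1, hb2⟩ := Finset.mem_erase.mp hb
    obtain ⟨d, _, rfl⟩ := Finset.mem_image.mp hb2
    have : e d < (q ^ (N + 1)) ^ m := Fin.isLt _
    omega
  · have h1 := Finset.pred_card_le_card_erase (s := (badᶜ).image e)
      (a := (q ^ (N + 1)) ^ m - 1)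
    rw [Finset.card_image_of_injective _ he, Finset.card_compl, hbad, hall] at h1
    have h3 : 2 ≤ q ^ m := h2.trans (Nat.le_self_pow hm0.ne' q)
    have h4 := bernoulli_nat (q ^ m - 1) (by omega)
    rw [← hN, Nat.sub_add_cancel (by omega)] at h4
    have h5 : (q ^ (N + 1)) ^ m = (q ^ m) ^ (N + 1) := by rw [← pow_mul q, ← pow_mul q, mul_comm]
    have h6 : 1 ≤ (q ^ m - 1) ^ (N + 1) := Nat.one_le_pow _ _ (by omega)
    rw [h5] at h1 ⊢
    omega
  · intro b hb u w
    obtain ⟨d, hd, rfl⟩ := Finset.mem_image.mp (Finset.mem_of_mem_erase hb)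
    have : ∃ c, d c = 0 := by
      by_contra hc
      push Not at hc
      exact (Finset.mem_compl.mp hd) (by simp [bad, hc])
    obtain ⟨c0, hc0⟩ := this
    have := good_of_empty p j w0 N m hk hm h2 (fun c i => d c i) (fun c i => (d c i).isLt) c0
      (fun i => by simp [hc0]) u w
    simpa only [e, finFunctionFinEquiv_apply] using this

theorem exists_lowrank (p : ℕ) [Fact p.Prime] (m : ℕ) (hm0 : 0 < m) :
    ∃ h : ℕ, 0 < h ∧ 2 < p ^ h ∧ ∀ (k F : Type) [Field k] [Fintype k] [Field F] [Fintype F]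
      [DecidableEq F] [CharP k p] [CharP F p] (j : k →+* F), Fintype.card k = p ^ h →
      Fintype.card F = (p ^ h) ^ m → ∀ ω : F, ω ≠ 1 →
      ∃ (U : Submodule F (Fˣ → F)) (I : Fˣ → Bool),
        (∀ (ℓ : k → Fˣ) (u w : F), (∀ t, (ℓ t : F) = u + j t * w) →
          ∑ t, Pi.single (ℓ t) (1 : F) ∈ U) ∧
        ∀ f ∈ U, ∀ g ∈ U, (∀ s, f s = cond (I s) 1 ω * g s) → f = 0 := by
  have hp : 2 ≤ p := (Fact.out : p.Prime).two_le
  have hm : m ≤ p ^ m := (Nat.lt_pow_self (by omega)).le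
  have h2 : 2 ≤ p ^ m := hp.trans (Nat.le_self_pow hm0.ne' p)
  have h3 : 2 ≤ (p ^ m) ^ m := h2.trans (Nat.le_self_pow hm0.ne' _)
  obtain ⟨N, hN⟩ : ∃ N, N = 2 * ((p ^ m) ^ m - 1) := ⟨_, rfl⟩
  refine ⟨m * (N + 1), by positivity, ?_, ?_⟩
  · rw [pow_mul, pow_succ]
    have : 2 ≤ (p ^ m) ^ N := h2.trans (Nat.le_self_pow (by omega) _)
    nlinarith
  intro k F _ _ _ _ _ _ _ j hk hF ω hω
  rw [pow_mul] at hk hF
  obtain ⟨G, hG1, hG2, hG3⟩ := many_good p j m N m hm0 hk hm h2 hN
  obtain ⟨γ, hγ⟩ := IsCyclic.exists_generator (α := Fˣ)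
  have hord : orderOf γ = ((p ^ m) ^ (N + 1)) ^ m - 1 := by
    rw [orderOf_eq_card_of_forall_mem_zpowers hγ, Nat.card_eq_fintype_card, Fintype.card_units,
      hF]
  have hex : ∀ s : Fˣ, ∃ i, i < orderOf γ ∧ γ ^ i = s := by
    intro s
    obtain ⟨i, hi, he⟩ := Finset.mem_image.mp (mem_zpowers_iff_mem_range_orderOf.mp (hγ s))
    exact ⟨i, Finset.mem_range.mp hi, he⟩
  choose lg hlt hlg using hex
  rw [← hord] at hG1 hG2
  let U : Submodule F (Fˣ → F) :=
    { carrier := {f | ∀ b ∈ G, ∑ s, f s * (s : F) ^ b = 0}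
      add_mem' := by
        intro f g hf hg b hb
        simp [add_mul, Finset.sum_add_distrib, hf b hb, hg b hb]
      zero_mem' := by intro b _; simp
      smul_mem' := by
        intro c f hf b hb
        simp [mul_assoc, ← Finset.mul_sum, hf b hb] }
  refine ⟨U, fun s => decide (lg s < G.card), ?_, ?_⟩
  · intro ℓ u w hl b hb
    simp only [Finset.sum_apply, Finset.sum_mul]
    rw [Finset.sum_comm, ← hG3 b hb u w]
    refine Finset.sum_congr rfl fun t _ => ?_
    rw [Finset.sum_eq_single (ℓ t)]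
    · simp [hl]
    · intro s _ hs; simp [hs]
    · simp
  · intro f hf g hg hfg
    have hω' : ω - 1 ≠ 0 := sub_ne_zero.mpr hω
    have hJ : f - g = 0 := by
      refine vanish γ G hG1 lg hlg G.card _ ?_ (U.sub_mem hf hg)
      intro s hs
      have := hlt s
      by_cases h : lg s < G.card
      · exact absurd (by simp [hfg s, h]) hs
      · omega
    have hI : f - ω • g = 0 := by
      refine vanish γ G hG1 lg hlg 0 _ ?_ (U.sub_mem hf (U.smul_mem ω hg))
      intro s hs
      by_cases h : lg s < G.card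
      · omega
      · exact absurd (by simp [hfg s, h]) hs
    have h4 : f = g := sub_eq_zero.mp hJ
    subst h4
    have h5 : (ω - 1) • f = 0 := by
      rw [sub_smul, one_smul, ← neg_sub, hI, neg_zero]
    exact (smul_eq_zero.mp h5).resolve_left hω'

end Vale.Agent.P194
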