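import Vale.Agent.P194.Design
import Vale.Agent.P194.LowRank

/-! Existence of the finite fields the design needs. -/

namespace Vale.Agent.P194

theorem exists_design (p : ℕ) [Fact p.Prime] :
    ∃ (k F : Type) (_ : Field k) (_ : Field F) (_ : Fintype k) (_ : Fintype F)
      (_ : DecidableEq F) (_ : CharP F p) (σ : Pt k → Fˣ) (ϑ : Fˣ → kˣ), Sidon σ ∧
      ¬ IsDedekindFiniteMonoid (MonoidAlgebra (Module.End F (Fˣ → F))
        (TriGroup (TT (CutEdge.src (cut := ecut σ) esrc) (CutEdge.lab (elb σ))
          (CutEdge.snk (esnk σ ϑ))))) := by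
  classical
  obtain ⟨h, hpos, h2, hlow⟩ := exists_lowrank p 16 (by norm_num)
  let k := GaloisField p h
  let k₁ := FiniteField.Extension k p 8
  have c₁ : CharP k₁ p := charP_of_injective_algebraMap (algebraMap k k₁).injective p
  let F := FiniteField.Extension k₁ p 2
  have c₂ : CharP F p := charP_of_injective_algebraMap (algebraMap k₁ F).injective p
  let i₀ : Fintype k := Fintype.ofFinite k
  let i₂ : Fintype F := Fintype.ofFinite F
  have hk : Fintype.card k = p ^ h := by
    rw [Fintype.card_eq_nat_card]; exact GaloisField.card p h hpos.ne'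
  have hF : Fintype.card F = (p ^ h) ^ 16 := by
    rw [Fintype.card_eq_nat_card, FiniteField.natCard_extension, FiniteField.natCard_extension,
      ← Fintype.card_eq_nat_card, hk, ← pow_mul]
  let j : k →+* F := (algebraMap k₁ F).comp (algebraMap k k₁)
  let L : Pt k ≃ₗ[k] k₁ := LinearEquiv.ofFinrankEq _ _ (by
    rw [FiniteField.finrank_extension]
    simp [Module.finrank_prod])
  obtain ⟨γ, hγ⟩ : ∃ γ : F, γ ∉ Set.range (algebraMap k₁ F) := by
    by_contra hc
    push Not at hc
    have hb : Function.Bijective (algebraMap k₁ F) := ⟨(algebraMap k₁ F).injective, hc⟩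
    have h3 := Nat.card_eq_of_bijective _ hb
    rw [FiniteField.natCard_extension k₁ p 2] at h3
    have h4 : 1 < Nat.card k₁ := Finite.one_lt_card
    nlinarith
  have hne : ∀ w : Pt k, γ + algebraMap k₁ F (L w) ≠ 0 := by
    intro w hw
    exact hγ ⟨-L w, by rw [map_neg]; linear_combination -hw⟩
  let σ : Pt k → Fˣ := fun w => Units.mk0 _ (hne w)
  have hσv : ∀ w, (σ w : F) = γ + algebraMap k₁ F (L w) := fun w => rfl
  have hinj : Function.Injective σ := by
    intro w w' hw
    have := congrArg Units.val hw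
    rw [hσv, hσv, add_right_inj] at this
    exact L.injective ((algebraMap k₁ F).injective this)
  have hσ : Sidon σ := by
    refine ⟨hinj, ?_⟩
    intro l l' w₁ w₂ w₁' w₂' e₁ e₂
    by_cases hw : w₁ = w₂
    · exact Or.inl hw
    right
    have e₁' := congrArg Units.val e₁
    have e₂' := congrArg Units.val e₂
    simp only [Units.val_mul, hσv] at e₁' e₂'
    have e₃ : (γ + algebraMap k₁ F (L w₁)) * (γ + algebraMap k₁ F (L w₂')) =
        (γ + algebraMap k₁ F (L w₁')) * (γ + algebraMap k₁ F (L w₂)) := by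
      apply mul_left_cancel₀ (Units.ne_zero l)
      linear_combination (γ + algebraMap k₁ F (L w₂')) * e₁' - (γ + algebraMap k₁ F (L w₁')) * e₂'
    have e₄ : L w₁ + L w₂' - L w₁' - L w₂ = 0 := by
      by_contra hc
      have hc' : algebraMap k₁ F (L w₁ + L w₂' - L w₁' - L w₂) ≠ 0 :=
        (map_ne_zero _).mpr hc
      apply hγ
      refine ⟨(L w₁' * L w₂ - L w₁ * L w₂') / (L w₁ + L w₂' - L w₁' - L w₂), ?_⟩
      rw [map_div₀, div_eq_iff hc']
      simp only [map_sub, map_add, map_mul]
      linear_combination -e₃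
    have e₅ := congrArg (algebraMap k₁ F) e₄
    simp only [map_sub, map_add, map_zero] at e₅
    have e₆ : algebraMap k₁ F (L w₁) - algebraMap k₁ F (L w₂) ≠ 0 := by
      rw [sub_ne_zero]
      exact fun hc => hw (L.injective ((algebraMap k₁ F).injective hc))
    have hl : l = l' := by
      apply Units.ext
      apply mul_right_cancel₀ e₆
      linear_combination e₁' - e₂' - (l' : F) * e₅
    subst hl
    exact ⟨rfl, hinj (mul_left_cancel e₁), hinj (mul_left_cancel e₂)⟩
  obtain ⟨ω, hω⟩ : ∃ ω : kˣ, ω ≠ 1 := by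
    have : 1 < Fintype.card kˣ := by rw [Fintype.card_units, hk]; omega
    exact Fintype.exists_ne_of_one_lt_card this 1
  obtain ⟨U, I, hU, hU2⟩ := hlow k F j hk hF (j ω) (by
    intro hc
    exact hω (Units.ext (j.injective (by rw [hc]; simp))))
  refine ⟨k, F, inferInstance, inferInstance, i₀, i₂, inferInstance, c₂, σ,
    fun s => cond (I s) 1 ω, hσ, design_not_df hσ j ?_ U hU ?_⟩
  · intro w d
    refine ⟨γ + algebraMap k₁ F (L w), algebraMap k₁ F (L d), fun t => ?_⟩
    rw [hσv, map_add, map_smul, map_add, Algebra.smul_def, map_mul]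
    simp only [j, RingHom.comp_apply]
    ring
  · intro f hf g hg hfg
    refine hU2 f hf g hg fun s => ?_
    rw [hfg s]
    cases I s <;> simp

end Vale.Agent.P194
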