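import Vale.Agent.P194.Surgery

/-! From flows on a triangle system to a one-sided inverse in a group ring. -/

namespace Vale.Agent.P194

open MonoidAlgebra

theorem not_df_key {R : Type*} [Ring R] (P D b a : R) (hP : P * P = P) (hb : P * b = b)
    (h : P * D * b = P) (ha : P * a = a) (h0 : P * D * a = 0) (hne : a ≠ 0) :
    ¬ IsDedekindFiniteMonoid R := by
  intro hdf
  have h1 : (P * D * P + (1 - P)) * (b * P + (1 - P)) = 1 := by
    have e1 : P * D * P * (b * P) = P := by
      rw [mul_assoc (P * D), ← mul_assoc P b, hb, ← mul_assoc, h, hP]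
    have e2 : P * D * P * (1 - P) = 0 := by rw [mul_assoc, mul_sub, hP]; simp
    have e3 : (1 - P) * (b * P) = 0 := by rw [← mul_assoc, sub_mul, hb]; simp
    have e4 : (1 - P) * (1 - P) = 1 - P := by rw [mul_sub, sub_mul, sub_mul, hP]; simp
    rw [add_mul, mul_add, mul_add, e1, e2, e3, e4]
    simp
  have h2 := mul_eq_one_symm h1
  have h3 : (P * D * P + (1 - P)) * a = 0 := by
    rw [add_mul, mul_assoc (P * D), ha, h0, sub_mul, ha]; simp
  apply hne
  calc a = (b * P + (1 - P)) * (P * D * P + (1 - P)) * a := by rw [h2, one_mul]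
    _ = 0 := by rw [mul_assoc, h3, mul_zero]

variable {E X S Y B : Type*} [Ring B] [Fintype E] [Fintype S] [Fintype X] [Fintype Y]
  [DecidableEq X] [DecidableEq S] [DecidableEq Y]

/-- a weighting of the edges that is admissible at every source and every sink -/
structure Flow (src : E → X) (lab : E → S) (snk : E → Y) (es : S → B) (P : B) (m : E → B) :
    Prop where
  lab : ∀ e s, es s * m e = if s = lab e then m e else 0
  src : ∀ x, P * ∑ e with src e = x, m e = ∑ e with src e = x, m e
  snk : ∀ y, P * ∑ e with snk e = y, m e = 0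

theorem sum_single_fiber {G : Type*} [Group G] (f : E → X) (g : X → G) (m : E → B) :
    ∑ e, single (g (f e)) (m e) = ∑ x, single (g x) (∑ e with f e = x, m e) := by
  rw [← Finset.sum_fiberwise Finset.univ f]
  refine Finset.sum_congr rfl fun x _ => ?_
  rw [← singleAddHom_apply, map_sum]
  refine Finset.sum_congr rfl fun e he => ?_
  rw [(Finset.mem_filter.mp he).2, singleAddHom_apply]

theorem Flow.calc {G : Type*} [Group G] {src : E → X} {lab : E → S} {snk : E → Y} {es : S → B}
    {P : B} {m : E → B} (hm : Flow src lab snk es P m) (gx : X → G) (gs : S → G) (gy : Y → G) :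
    single 1 P * (∑ e, single (gx (src e)) (m e)) = ∑ e, single (gx (src e)) (m e) ∧
    single 1 P * (∑ s, single (gs s) (es s)) * (∑ e, single (gx (src e)) (m e)) =
      single 1 P * ∑ e, (single (gs (lab e) * gx (src e)) (m e) - single (gy (snk e)) (m e)) := by
  constructor
  · rw [sum_single_fiber, Finset.mul_sum]
    refine Finset.sum_congr rfl fun x _ => ?_
    rw [single_mul_single, one_mul, hm.src]
  · have h1 : (∑ s, single (gs s) (es s)) * (∑ e, single (gx (src e)) (m e)) =
        ∑ e, single (gs (lab e) * gx (src e)) (m e) := by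
      rw [Finset.mul_sum]
      refine Finset.sum_congr rfl fun e _ => ?_
      rw [Finset.sum_mul, Finset.sum_eq_single (lab e)]
      · rw [single_mul_single, hm.lab, if_pos rfl]
      · intro s _ hs
        rw [single_mul_single, hm.lab, if_neg hs, single_zero]
      · simp
    have h2 : single 1 P * ∑ e, single (gy (snk e)) (m e) = 0 := by
      rw [sum_single_fiber, Finset.mul_sum]
      refine Finset.sum_eq_zero fun y _ => ?_
      rw [single_mul_single, hm.snk, single_zero]
    rw [mul_assoc, h1, Finset.sum_sub_distrib, mul_sub, h2, sub_zero]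

theorem not_df_of_group {G : Type*} [Group G] {src : E → X} {lab : E → S} {snk : E → Y}
    (hxs : ∀ {e e'}, src e = src e' → lab e = lab e' → e = e')
    (cut : S → E) (hc : ∀ s, lab (cut s) = s) (es : S → B) (hsum : ∑ s, es s = 1)
    (P : B) (hP : P * P = P)
    (H1 : ∀ s, ∃ m, Flow src lab snk es P m ∧ m (cut s) = es s ∧ ∀ s', s' ≠ s → m (cut s') = 0)
    (H2 : ∃ m, Flow src lab snk es P m ∧ (∀ s, m (cut s) = 0) ∧ ∃ e, m e ≠ 0)
    (gx : X → G) (gs : S → G) (gy : Y → G) (z : G) (gx' : S → G) (hinj : Function.Injective gx)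
    (hold : ∀ e, (∀ s, cut s ≠ e) → gs (lab e) * gx (src e) = gy (snk e))
    (hc1 : ∀ s, gs s * gx (src (cut s)) = z * gx' s)
    (hc2 : ∀ s, gy (snk (cut s)) = gs s * gx' s) :
    ¬ IsDedekindFiniteMonoid (MonoidAlgebra B G) := by
  classical
  set D : MonoidAlgebra B G := ∑ s, single (gs s) (es s) with hD
  set Q : MonoidAlgebra B G := single 1 P with hQ
  have hQQ : Q * Q = Q := by rw [hQ, single_mul_single, one_mul, hP]
  have H1' : ∀ s, ∃ a : MonoidAlgebra B G, Q * a = a ∧
      Q * D * a = Q * (single z (es s) - single (gs s) (es s)) := by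
    intro s
    obtain ⟨m, hm, h1, h2⟩ := H1 s
    obtain ⟨c1, c2⟩ := hm.calc gx gs gy
    refine ⟨(∑ e, single (gx (src e)) (m e)) * single (gx' s)⁻¹ 1, by rw [← mul_assoc, c1], ?_⟩
    rw [← mul_assoc, c2, mul_assoc]
    congr 1
    rw [Finset.sum_eq_single (cut s)]
    · rw [hc, hc1, hc2, h1, sub_mul, single_mul_single, single_mul_single]
      simp
    · intro e _ he
      by_cases h : ∀ s, cut s ≠ e
      · rw [hold e h, sub_self]
      · push Not at h
        obtain ⟨s', rfl⟩ := h
        rw [h2 s' (fun h => he (by rw [h]))]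
        simp
    · simp
  choose a ha1 ha2 using H1'
  obtain ⟨m, hm, h1, e₀, h2⟩ := H2
  obtain ⟨c1, c2⟩ := hm.calc gx gs gy
  refine not_df_key Q D (((∑ s, a s) * Q + Q) * single z⁻¹ 1)
    (∑ e, single (gx (src e)) (m e)) hQQ ?_ ?_ c1 ?_ ?_
  · rw [← mul_assoc, mul_add, hQQ, ← mul_assoc, Finset.mul_sum]
    simp only [ha1]
  · have h3 : Q * D * ∑ s, a s = Q * (single z 1 - D) := by
      rw [Finset.mul_sum]
      simp only [ha2]
      rw [← Finset.mul_sum, Finset.sum_sub_distrib, ← hsum, ← singleAddHom_apply z (∑ s, es s),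
        map_sum]
      simp only [singleAddHom_apply, hD]
    rw [← mul_assoc, mul_add, ← mul_assoc, h3, mul_sub, sub_mul, sub_add_cancel, hQ]
    simp only [single_mul_single, hP, mul_one, one_mul, mul_inv_cancel]
  · rw [c2, Finset.sum_eq_zero, mul_zero]
    intro e _
    by_cases h : ∀ s, cut s ≠ e
    · rw [hold e h, sub_self]
    · push Not at h
      obtain ⟨s', rfl⟩ := h
      rw [h1 s']
      simp
  · intro h0
    apply h2
    have h4 := congrArg (fun x : MonoidAlgebra B G => es (lab e₀) * x.coeff (gx (src e₀))) h0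
    simp only [coeff_sum, Finsupp.coe_finsetSum, Finset.sum_apply, coeff_single, coeff_zero,
      Finsupp.coe_zero, Pi.zero_apply, mul_zero, Finset.mul_sum] at h4
    rw [Finset.sum_eq_single e₀] at h4
    · rwa [Finsupp.single_eq_same, hm.lab, if_pos rfl] at h4
    · intro e _ he
      by_cases hs : src e = src e₀
      · rw [hs, Finsupp.single_eq_same, hm.lab, if_neg]
        intro hl
        exact he (hxs hs hl.symm)
      · rw [Finsupp.single_eq_of_ne, mul_zero]
        intro h
        exact hs (hinj h).symm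
    · simp

theorem not_df_of_sys {src : E → X} {lab : E → S} {snk : E → Y} (h : IsSys src lab snk)
    (cut : S → E) (hc : ∀ s, lab (cut s) = s) (es : S → B) (hsum : ∑ s, es s = 1)
    (P : B) (hP : P * P = P)
    (H1 : ∀ s, ∃ m, Flow src lab snk es P m ∧ m (cut s) = es s ∧ ∀ s', s' ≠ s → m (cut s') = 0)
    (H2 : ∃ m, Flow src lab snk es P m ∧ (∀ s, m (cut s) = 0) ∧ ∃ e, m e ≠ 0) :
    ¬ IsDedekindFiniteMonoid (MonoidAlgebra B
      (TriGroup (TT (CutEdge.src (cut := cut) src) (CutEdge.lab lab) (CutEdge.snk snk)))) := by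
  have ht := (h.cut hc).isTri
  set T := TT (CutEdge.src (cut := cut) src) (CutEdge.lab lab) (CutEdge.snk snk) with hT
  have key : ∀ e : CutEdge cut,
      (PresentedGroup.of (Sum.inr (Sum.inl (e.lab lab))) : TriGroup T)⁻¹ *
        (PresentedGroup.of (Sum.inl (e.src src)))⁻¹ =
        PresentedGroup.of (Sum.inr (Sum.inr (e.snk snk))) := by
    intro e
    have := tri_rel (T := T) ⟨e, Or.inl ⟨rfl, rfl, rfl⟩⟩
    rw [← mul_inv_rev, eq_comm, eq_inv_iff_mul_eq_one]
    exact mul_eq_one_comm.mp this
  refine not_df_of_group h.xs.simple cut hc es hsum P hP H1 H2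
    (fun x => (PresentedGroup.of (.inl (.inl x)))⁻¹)
    (fun s => (PresentedGroup.of (.inr (.inl (some s))))⁻¹)
    (fun y => PresentedGroup.of (.inr (.inr (.inl y))))
    (PresentedGroup.of (.inr (.inl none)))⁻¹
    (fun s => (PresentedGroup.of (.inl (.inr s)))⁻¹) ?_ ?_ ?_ ?_
  · intro x x' hx
    have := of_injective ht (inv_injective hx)
    simpa using this
  · intro e he
    exact key (.old e he)
  · intro s
    exact (key (.fst s)).trans (key (.mid s)).symm
  · intro s
    exact (key (.lst s)).symm

end Vale.Agent.P194
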