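import Mathlib

/-! Passing from matrix coefficients to field coefficients, and to finitely presented groups. -/

namespace Vale.Agent.P194

open MonoidAlgebra

theorem df_of_nonunital {R R' : Type*} [Ring R] [Ring R'] (ψ : R →+ R')
    (hmul : ∀ x y, ψ (x * y) = ψ x * ψ y) (hinj : Function.Injective ψ)
    (h : IsDedekindFiniteMonoid R') : IsDedekindFiniteMonoid R := by
  have key : ∀ x y, (ψ x + (1 - ψ 1)) * (ψ y + (1 - ψ 1)) = ψ (x * y) + (1 - ψ 1) := by
    intro x y
    have e1 : ψ x * ψ 1 = ψ x := by rw [← hmul, mul_one]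
    have e2 : ψ 1 * ψ y = ψ y := by rw [← hmul, one_mul]
    have e3 : ψ 1 * ψ 1 = ψ 1 := by rw [← hmul, one_mul]
    simp only [add_mul, mul_add, mul_sub, sub_mul, e1, e2, e3, hmul, mul_one, one_mul]
    abel
  refine ⟨fun {a b} hab => hinj ?_⟩
  have h1 := key a b
  rw [hab, add_sub_cancel] at h1
  have h2 := mul_eq_one_symm h1
  rw [key] at h2
  have h3 : ψ (b * a) = 1 - (1 - ψ 1) := eq_sub_of_add_eq h2
  rw [h3, sub_sub_cancel]

theorem df_monoidAlgebra_of_nonunital {B B' G : Type*} [Ring B] [Ring B'] [Group G] (ψ : B →+ B')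
    (hmul : ∀ x y, ψ (x * y) = ψ x * ψ y) (hinj : Function.Injective ψ)
    (h : IsDedekindFiniteMonoid (MonoidAlgebra B' G)) :
    IsDedekindFiniteMonoid (MonoidAlgebra B G) := by
  let Ψ : MonoidAlgebra B G →+ MonoidAlgebra B' G :=
    { toFun := MonoidAlgebra.map ψ
      map_zero' := MonoidAlgebra.map_zero ψ
      map_add' := MonoidAlgebra.map_add ψ }
  refine df_of_nonunital Ψ ?_ (MonoidAlgebra.map_injective ψ hinj) h
  intro x y
  induction x using MonoidAlgebra.induction_linear with
  | zero => simp
  | add x x' hx hx' => rw [add_mul, map_add, map_add, add_mul, hx, hx']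
  | single g b =>
    induction y using MonoidAlgebra.induction_linear with
    | zero => simp
    | add y y' hy hy' => rw [mul_add, map_add, map_add, mul_add, hy, hy']
    | single g' b' =>
      simp only [Ψ, AddMonoidHom.coe_mk, ZeroHom.coe_mk, single_mul_single, map_single, hmul]

theorem exists_of_units {K R n : Type*} [Field K] [Ring R] [Algebra K R] [Fintype n]
    [DecidableEq n] (E : n → n → R) (hE : ∀ i j k l, E i j * E k l = if j = k then E i l else 0)
    (o : n) (ho : E o o ≠ 0) :
    ∃ ψ : Matrix n n K →+ R, (∀ x y, ψ (x * y) = ψ x * ψ y) ∧ Function.Injective ψ := by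
  let ψ : Matrix n n K →+ R :=
    { toFun := fun A => ∑ i, ∑ j, A i j • E i j
      map_zero' := by simp
      map_add' := by intro x y; simp [add_smul, Finset.sum_add_distrib] }
  refine ⟨ψ, ?_, ?_⟩
  · intro x y
    simp only [ψ, AddMonoidHom.coe_mk, ZeroHom.coe_mk, Matrix.mul_apply, Finset.sum_smul,
      Finset.sum_mul]
    refine Finset.sum_congr rfl fun i _ => ?_
    rw [Finset.sum_comm]
    refine Finset.sum_congr rfl fun j _ => ?_
    simp only [Finset.mul_sum, smul_mul_smul_comm, hE, smul_ite, smul_zero]
    rw [Finset.sum_comm]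
    simp
  · rw [injective_iff_map_eq_zero]
    intro A hA
    ext i j
    have h1 : E o i * ψ A * E j o = A i j • E o o := by
      simp only [ψ, AddMonoidHom.coe_mk, ZeroHom.coe_mk, Finset.sum_mul, Finset.mul_sum,
        mul_smul_comm, smul_mul_assoc, hE]
      rw [Finset.sum_eq_single i, Finset.sum_eq_single j]
      · simp [hE]
      · intro b _ hb; simp [hE, hb]
      · simp
      · intro b _ hb; simp [hb.symm]
      · simp
    rw [hA, mul_zero, zero_mul] at h1
    exact (smul_eq_zero.mp h1.symm).resolve_right ho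

theorem exists_units (p : ℕ) [Fact p.Prime] (K : Type*) [Field K] [CharP K p] (n : Type)
    [Fintype n] [DecidableEq n] (o : n) :
    ∃ (H : Type) (_ : Group H) (E : n → n → MonoidAlgebra K H),
      (∀ i j k l, E i j * E k l = if j = k then E i l else 0) ∧ E o o ≠ 0 := by
  classical
  let C := Multiplicative (ZMod (p + 1))
  have hC : ((Fintype.card C : ℕ) : K) = 1 := by simp [C]
  have hp : 2 ≤ p := (Fact.out : p.Prime).two_le
  have : Fact (1 < p + 1) := ⟨by omega⟩
  let A := n → C
  let φ : Equiv.Perm n →* MulAut A := mulAutArrow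
  let e : n → MonoidAlgebra K A := fun i => ∑ c : C, single (Pi.mulSingle i c) 1
  have he : ∀ i, e i * e i = e i := by
    intro i
    have : ∀ c : C, (single (Pi.mulSingle i c) (1 : K) : MonoidAlgebra K A) * e i = e i := by
      intro c
      simp only [e]
      rw [Finset.mul_sum,
        ← Equiv.sum_comp (Equiv.mulLeft c) fun c' => single (Pi.mulSingle i c' : A) (1 : K)]
      refine Finset.sum_congr rfl fun c' _ => ?_
      rw [single_mul_single, one_mul, Equiv.coe_mulLeft]
      congr 1
      exact (Pi.mulSingle_mul (f := fun _ : n => C) i c c').symm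
    conv_lhs => rw [show e i * e i = (∑ c : C, single (Pi.mulSingle i c) 1) * e i from rfl]
    rw [Finset.sum_mul]
    simp only [this, Finset.sum_const, Finset.card_univ]
    rw [← Nat.cast_smul_eq_nsmul K, hC, one_smul]
  let f : n → MonoidAlgebra K A := fun i => (1 - e i) * ∏ j ∈ Finset.univ.erase i, e j
  have hf1 : ∀ i, f i * f i = f i := by
    intro i
    have h1 : (1 - e i) * (1 - e i) = 1 - e i := by
      rw [mul_sub, sub_mul, sub_mul, he]; simp
    have h2 : (∏ j ∈ Finset.univ.erase i, e j) * (∏ j ∈ Finset.univ.erase i, e j) =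
        ∏ j ∈ Finset.univ.erase i, e j := by
      rw [← Finset.prod_mul_distrib]
      exact Finset.prod_congr rfl fun j _ => he j
    simp only [f]
    rw [mul_mul_mul_comm, h1, h2]
  have hf2 : ∀ i j, i ≠ j → f i * f j = 0 := by
    intro i j hij
    have h1 : (1 - e i) * e i = 0 := by rw [sub_mul, he]; simp
    simp only [f]
    rw [← Finset.mul_prod_erase (Finset.univ.erase j) e (a := i) (by simp [hij])]
    linear_combination
      ((∏ j ∈ Finset.univ.erase i, e j) * (1 - e j) *
        ∏ x ∈ (Finset.univ.erase j).erase i, e x) * h1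
  have hf3 : f o ≠ 0 := by
    intro h0
    let π := mapDomainRingHom K (Pi.evalMonoidHom (fun _ : n => C) o)
    have h1 : ∀ j, j ≠ o → π (e j) = 1 := by
      intro j hj
      simp only [π, e, map_sum, mapDomainRingHom_apply, mapDomain_single,
        Pi.evalMonoidHom_apply, Pi.mulSingle_eq_of_ne hj.symm, Finset.sum_const, Finset.card_univ]
      rw [← Nat.cast_smul_eq_nsmul K, hC, one_smul, one_def]
    have h2 := congrArg π h0
    simp only [f, map_mul, map_sub, map_one, map_prod, map_zero] at h2
    rw [Finset.prod_eq_one (fun j hj => h1 j (Finset.ne_of_mem_erase hj)), mul_one,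
      sub_eq_zero] at h2
    obtain ⟨c, hc⟩ : ∃ c : C, c ≠ 1 := exists_ne 1
    have h3 := congrArg (fun x : MonoidAlgebra K C => x.coeff c) h2
    simp [π, e, one_def, Finsupp.single_apply, hc.symm] at h3
    rw [Finset.sum_ite_eq'] at h3
    simp at h3
  let ρ : Equiv.Perm n → MonoidAlgebra K A →+* MonoidAlgebra K A := fun g =>
    mapDomainRingHom K (φ g).toMonoidHom
  have hρe : ∀ g i, ρ g (e i) = e (g i) := by
    intro g i
    simp only [ρ, e, map_sum, mapDomainRingHom_apply, mapDomain_single]
    refine Finset.sum_congr rfl fun c _ => ?_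
    congr 1
    funext x
    change (Pi.mulSingle i c : A) (g⁻¹ x) = _
    by_cases hx : x = g i
    · subst hx; simp
    · rw [Pi.mulSingle_eq_of_ne hx, Pi.mulSingle_eq_of_ne]
      intro h
      exact hx (by rw [← h]; simp)
  have hρf : ∀ g i, ρ g (f i) = f (g i) := by
    intro g i
    simp only [f, map_mul, map_sub, map_one, map_prod, hρe]
    congr 1
    refine Finset.prod_equiv g ?_ ?_
    · intro j; simp
    · intro j _; rfl
  let H := A ⋊[φ] Equiv.Perm n
  let ι : MonoidAlgebra K A →+* MonoidAlgebra K H := mapDomainRingHom K SemidirectProduct.inl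
  let s : Equiv.Perm n →* MonoidAlgebra K H := (of K H).comp SemidirectProduct.inr
  have hs : ∀ g x, s g * ι x = ι (ρ g x) * s g := by
    intro g x
    induction x using MonoidAlgebra.induction_linear with
    | zero => simp
    | add x y hx hy => simp only [map_add, mul_add, add_mul, hx, hy]
    | single a r =>
      simp only [s, ι, ρ, mapDomainRingHom_apply, mapDomain_single, MonoidHom.comp_apply,
        of_apply, single_mul_single, one_mul, mul_one]
      congr 1
      change _ = SemidirectProduct.inl (φ g a) * _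
      rw [SemidirectProduct.inl_aut]
      simp
  refine ⟨H, inferInstance, fun i j => s (Equiv.swap o i) * ι (f o) * s (Equiv.swap o j), ?_, ?_⟩
  · intro i j k l
    have h1 : s (Equiv.swap o i) * ι (f o) * s (Equiv.swap o j) *
        (s (Equiv.swap o k) * ι (f o) * s (Equiv.swap o l)) =
        s (Equiv.swap o i) * ι (f o * f (Equiv.swap o j k)) *
          s (Equiv.swap o j * Equiv.swap o k) * s (Equiv.swap o l) := by
      have := hs (Equiv.swap o j * Equiv.swap o k) (f o)
      rw [hρf, Equiv.Perm.mul_apply, Equiv.swap_apply_left] at this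
      generalize f o = x at this ⊢
      generalize f (Equiv.swap o j k) = y at this ⊢
      rw [map_mul ι, mul_assoc (s _) (ι x * ι y), mul_assoc (ι x), ← this, map_mul]
      simp only [mul_assoc]
    rw [h1]
    by_cases hjk : j = k
    · subst hjk
      simp [hf1]
    · rw [if_neg hjk, hf2]
      · simp
      · intro h
        apply hjk
        have := congrArg (Equiv.swap o j) h
        simpa using this
  · simp only [Equiv.swap_self]
    change s 1 * ι (f o) * s 1 ≠ 0
    rw [map_one, one_mul, mul_one]
    intro h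
    apply hf3
    apply mapDomain_injective (R := K) (SemidirectProduct.inl_injective (φ := φ))
    rw [mapDomain_zero]
    exact h

theorem exists_field_of_ring (p : ℕ) [Fact p.Prime] {B G : Type} [Ring B] [Finite B] [CharP B p]
    [Group G] (h : ¬ IsDedekindFiniteMonoid (MonoidAlgebra B G)) :
    ∃ (H : Type) (_ : Group H), ¬ IsDedekindFiniteMonoid (MonoidAlgebra (ZMod p) (G × H)) := by
  classical
  let _ : Algebra (ZMod p) B := ZMod.algebra B p
  have : Nontrivial B := CharP.nontrivial_of_char_ne_one (Fact.out : p.Prime).ne_one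
  let b := Module.finBasis (ZMod p) B
  have hpos : 0 < Module.finrank (ZMod p) B := Module.finrank_pos
  obtain ⟨H, _, E, hE, ho⟩ := exists_units p (ZMod p) (Fin (Module.finrank (ZMod p) B)) ⟨0, hpos⟩
  obtain ⟨ψ, hψ, hinj⟩ := exists_of_units (K := ZMod p) E hE _ ho
  refine ⟨H, inferInstance, fun hdf => h ?_⟩
  refine df_monoidAlgebra_of_nonunital
    (ψ.comp (Algebra.leftMulMatrix b).toRingHom.toAddMonoidHom) ?_
    (hinj.comp (Algebra.leftMulMatrix_injective b)) ?_
  · intro x y
    simp [hψ]
  · exact IsDedekindFiniteMonoid.of_injective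
      (curryRingEquiv (R := ZMod p) (M := G) (N := H)).symm
      (curryRingEquiv (R := ZMod p) (M := G) (N := H)).symm.injective

theorem exists_fp {K G : Type} [Field K] [Group G] (a b : MonoidAlgebra K G) (hab : a * b = 1)
    (hba : b * a ≠ 1) :
    ∃ (G' : Type) (_ : Group G'), Group.IsFinitelyPresented G' ∧
      ∃ a' b' : MonoidAlgebra K G', a' * b' = 1 ∧ b' * a' ≠ 1 := by
  classical
  let T : Finset G := insert 1 (a.coeff.support ∪ b.coeff.support ∪
    Finset.image₂ (· * ·) a.coeff.support b.coeff.support)
  let rels : Set (FreeGroup T) := {r | ∃ x y z : T, (x : G) * y = z ∧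
    r = FreeGroup.of x * FreeGroup.of y * (FreeGroup.of z)⁻¹}
  have : Finite rels := by
    refine Set.Finite.subset (Set.finite_range fun t : T × T × T =>
      FreeGroup.of t.1 * FreeGroup.of t.2.1 * (FreeGroup.of t.2.2)⁻¹) ?_
    rintro _ ⟨x, y, z, -, rfl⟩
    exact ⟨(x, y, z), rfl⟩
  let G' := PresentedGroup rels
  let π : G' →* G := PresentedGroup.toGroup (f := fun t : T => (t : G)) (by
    rintro _ ⟨x, y, z, h, rfl⟩
    simp [h])
  let l : G → G' := fun g => if h : g ∈ T then PresentedGroup.of ⟨g, h⟩ else 1
  have hl : ∀ x ∈ T, ∀ y ∈ T, x * y ∈ T → l x * l y = l (x * y) := by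
    intro x hx y hy hxy
    simp only [l, hx, hy, hxy, dif_pos]
    have : PresentedGroup.mk rels (FreeGroup.of ⟨x, hx⟩ * FreeGroup.of ⟨y, hy⟩) =
        PresentedGroup.mk rels (FreeGroup.of ⟨x * y, hxy⟩) :=
      PresentedGroup.mk_eq_mk_of_mul_inv_mem ⟨⟨x, hx⟩, ⟨y, hy⟩, ⟨x * y, hxy⟩, rfl, rfl⟩
    simpa [PresentedGroup.of] using this
  have h1T : (1 : G) ∈ T := Finset.mem_insert_self _ _
  have hl1 : l 1 = 1 := by
    have := hl 1 h1T 1 h1T (by simpa using h1T)
    simpa using this
  have hπ : ∀ x ∈ T, π (l x) = x := by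
    intro x hx
    simp only [l, hx, dif_pos, π]
    exact PresentedGroup.toGroup.of _
  have haT : ∀ x ∈ a.coeff.support, x ∈ T := fun x hx => by simp only [T]; grind
  have hbT : ∀ x ∈ b.coeff.support, x ∈ T := fun x hx => by simp only [T]; grind
  have hback : ∀ c : MonoidAlgebra K G, (∀ x ∈ c.coeff.support, x ∈ T) →
      mapDomainRingHom K π (mapDomain l c) = c := by
    intro c hc
    conv_lhs => rw [← sum_coeff_single c]
    conv_rhs => rw [← sum_coeff_single c]
    rw [mapDomain_sum, Finsupp.sum, Finsupp.sum, map_sum]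
    refine Finset.sum_congr rfl fun x hx => ?_
    rw [mapDomain_single, mapDomainRingHom_apply, mapDomain_single, hπ x (hc x hx)]
  refine ⟨G', inferInstance, inferInstance, mapDomain l a, mapDomain l b, ?_, ?_⟩
  · have h2 : mapDomain l a * mapDomain l b = mapDomain l (a * b) := by
      let L := mapDomainLinearMap K K l
      have hL : ∀ c, mapDomain l c = L c := fun c => rfl
      conv_lhs => rw [← sum_coeff_single a, ← sum_coeff_single b]
      conv_rhs => rw [← sum_coeff_single a, ← sum_coeff_single b]
      simp only [hL, Finsupp.sum, Finset.sum_mul, Finset.mul_sum, map_sum]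
      refine Finset.sum_congr rfl fun y hy => Finset.sum_congr rfl fun x hx => ?_
      simp only [← hL, single_mul_single, mapDomain_single]
      rw [hl x (haT x hx) y (hbT y hy)]
      simp only [T, Finset.mem_insert, Finset.mem_union]
      exact Or.inr (Or.inr (Finset.mem_image₂_of_mem hx hy))
    rw [h2, hab, one_def, mapDomain_single, hl1, one_def]
  · intro h
    apply hba
    have := congrArg (mapDomainRingHom K π) h
    rwa [map_mul, hback a haT, hback b hbT, map_one] at this

end Vale.Agent.P194
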