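import Vale.Agent.P194.Alg

/-! The concrete triangle system built from lines in multiplicative translates of a Sidon set. -/

namespace Vale.Agent.P194

/-- points -/
abbrev Pt (k : Type*) := k × k × k × k × k × k × k × k

/-- edges, sources and sinks all have this shape -/
abbrev Ed (k F : Type*) [Field F] := Fˣ × k × k × Pt k

variable {k F : Type*} [Field k] [Field F]

/-- direction of a source line -/
def dX (a κ : k) : Pt k := (1, a, κ, 0, 0, 0, 0, 0)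

/-- direction of a sink line -/
def dY (a κ : k) : Pt k := (0, 0, 0, 1, a, a ^ 2, κ, 0)

/-- label of an edge -/
def elb (σ : Pt k → Fˣ) (e : Ed k F) : Fˣ := e.1 * σ e.2.2.2

/-- source of an edge -/
def esrc (e : Ed k F) : Ed k F :=
  (e.1, e.2.1, e.2.2.1, e.2.2.2 - e.2.2.2.1 • dX e.2.1 e.2.2.1)

/-- sink of an edge -/
def esnk (σ : Pt k → Fˣ) (ϑ : Fˣ → kˣ) (e : Ed k F) : Ed k F :=
  (e.1, e.2.1 + e.2.2.2.1, e.2.2.1 * ((ϑ (elb σ e))⁻¹ : kˣ),
    e.2.2.2 - e.2.2.2.2.2.2.1 • dY (e.2.1 + e.2.2.2.1) (e.2.2.1 * ((ϑ (elb σ e))⁻¹ : kˣ)))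

/-- the multiplicative translates of the image of `σ` meet in at most one point -/
structure Sidon (σ : Pt k → Fˣ) : Prop where
  inj : Function.Injective σ
  two : ∀ {l l' w₁ w₂ w₁' w₂'}, l * σ w₁ = l' * σ w₁' → l * σ w₂ = l' * σ w₂' →
    w₁ = w₂ ∨ (l = l' ∧ w₁ = w₁' ∧ w₂ = w₂')

variable {σ : Pt k → Fˣ} {ϑ : Fˣ → kˣ}

theorem esrc_eq {l l' : Fˣ} {a a' κ κ' : k} {w w' : Pt k}
    (h : esrc ((l, a, κ, w) : Ed k F) = esrc (l', a', κ', w')) :
    l = l' ∧ a = a' ∧ κ = κ' ∧ w = w' + (w.1 - w'.1) • dX a κ := by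
  simp only [esrc, Prod.mk.injEq] at h
  obtain ⟨rfl, rfl, rfl, h⟩ := h
  refine ⟨rfl, rfl, rfl, ?_⟩
  rw [sub_smul]
  linear_combination (exp := 1) h

theorem esnk_eq {l l' : Fˣ} {a a' κ κ' : k} {w w' : Pt k}
    (h : esnk σ ϑ ((l, a, κ, w) : Ed k F) = esnk σ ϑ (l', a', κ', w')) :
    l = l' ∧ a + w.1 = a' + w'.1 ∧
      κ * ((ϑ (l * σ w))⁻¹ : kˣ) = κ' * ((ϑ (l' * σ w'))⁻¹ : kˣ) ∧
      w = w' + (w.2.2.2.1 - w'.2.2.2.1) • dY (a + w.1) (κ * ((ϑ (l * σ w))⁻¹ : kˣ)) := by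
  simp only [esnk, elb, Prod.mk.injEq] at h
  obtain ⟨rfl, h1, h2, h⟩ := h
  refine ⟨rfl, h1, h2, ?_⟩
  rw [← h1, ← h2] at h
  rw [sub_smul]
  linear_combination (exp := 1) h

theorem girth_xs (hσ : Sidon σ) : Girth6 (esrc : Ed k F → Ed k F) (elb σ) where
  simple := by
    rintro ⟨l, a, κ, w⟩ ⟨l', a', κ', w'⟩ h₁ h₂
    obtain ⟨rfl, rfl, rfl, -⟩ := esrc_eq h₁
    simp only [elb] at h₂
    rw [hσ.inj (mul_left_cancel h₂)]
  quad := by
    rintro ⟨l₁, a₁, κ₁, w₁⟩ ⟨l₂, a₂, κ₂, w₂⟩ ⟨l₃, a₃, κ₃, w₃⟩ ⟨l₄, a₄, κ₄, w₄⟩ h₁ h₂ h₃ h₄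
    obtain ⟨rfl, rfl, rfl, g₁⟩ := esrc_eq h₁
    obtain ⟨rfl, rfl, rfl, g₃⟩ := esrc_eq h₃.symm
    simp only [elb] at h₂ h₄
    rcases hσ.two h₄.symm h₂ with rfl | ⟨rfl, rfl, rfl⟩
    · exact Or.inl rfl
    by_cases ht : w₁.1 - w₂.1 = 0
    · rw [ht, zero_smul, add_zero] at g₁
      exact Or.inl (by rw [g₁])
    · have := g₁.symm.trans g₃
      rw [add_right_inj] at this
      have := smul_right_injective _ ht this
      simp only [dX, Prod.mk.injEq] at this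
      exact Or.inr (Or.inr (Or.inr (by rw [this.2.1, this.2.2.1])))

theorem simple_sy (hσ : Sidon σ) {e e' : Ed k F} (h₁ : elb σ e = elb σ e')
    (h₂ : esnk σ ϑ e = esnk σ ϑ e') : e = e' := by
  obtain ⟨l, a, κ, w⟩ := e
  obtain ⟨l', a', κ', w'⟩ := e'
  obtain ⟨rfl, h3, h4, -⟩ := esnk_eq h₂
  simp only [elb] at h₁
  obtain rfl := hσ.inj (mul_left_cancel h₁)
  rw [add_right_cancel h3, mul_right_cancel₀ (Units.ne_zero _) h4]

theorem girth_sy (hσ : Sidon σ) : Girth6 (elb σ) (esnk σ ϑ : Ed k F → Ed k F) where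
  simple := simple_sy hσ
  quad := by
    rintro ⟨l₁, a₁, κ₁, w₁⟩ ⟨l₂, a₂, κ₂, w₂⟩ ⟨l₃, a₃, κ₃, w₃⟩ ⟨l₄, a₄, κ₄, w₄⟩ h₁ h₂ h₃ h₄
    obtain ⟨rfl, -, -, h₅⟩ := esnk_eq h₂
    obtain ⟨rfl, -, -, h₆⟩ := esnk_eq h₄.symm
    simp only [elb] at h₁ h₃
    rcases hσ.two h₁ h₃.symm with rfl | ⟨rfl, rfl, rfl⟩
    · exact Or.inr (Or.inr (Or.inr (simple_sy hσ rfl h₄)))
    by_cases ht : w₁.2.2.2.1 - w₄.2.2.2.1 = 0
    · rw [ht, zero_smul, add_zero] at h₆
      subst h₆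
      exact Or.inr (Or.inr (Or.inr (simple_sy hσ rfl h₄)))
    · have := h₅.symm.trans h₆
      rw [add_right_inj] at this
      have := smul_right_injective _ ht this
      simp only [dY, Prod.mk.injEq] at this
      left
      rw [add_right_cancel this.2.2.2.2.1,
        mul_right_cancel₀ (Units.ne_zero _) this.2.2.2.2.2.2.1]

theorem eq_of_esrc {e e' : Ed k F} (h₁ : esrc e = esrc e')
    (h₂ : e.2.1 + e.2.2.2.1 = e'.2.1 + e'.2.2.2.1) : e = e' := by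
  obtain ⟨l, a, κ, w⟩ := e
  obtain ⟨l', a', κ', w'⟩ := e'
  obtain ⟨rfl, rfl, rfl, h⟩ := esrc_eq h₁
  have : w.1 = w'.1 := add_left_cancel h₂
  rw [this, sub_self, zero_smul, add_zero] at h
  rw [h]

theorem girth_yx (hσ : Sidon σ) : Girth6 (esnk σ ϑ : Ed k F → Ed k F) esrc where
  simple := fun h₁ h₂ => eq_of_esrc h₂ (congrArg (fun y => y.2.1) h₁)
  quad := by
    rintro ⟨l₁, a₁, κ₁, w₁⟩ ⟨l₂, a₂, κ₂, w₂⟩ ⟨l₃, a₃, κ₃, w₃⟩ ⟨l₄, a₄, κ₄, w₄⟩ h₁ h₂ h₃ h₄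
    obtain ⟨rfl, b₁, -, c₁⟩ := esnk_eq h₁
    obtain ⟨rfl, b₃, -, c₃⟩ := esnk_eq h₃
    obtain ⟨rfl, -, -, c₂⟩ := esrc_eq h₂
    obtain ⟨-, -, -, c₄⟩ := esrc_eq h₄
    by_cases ht : w₁.2.2.2.1 - w₂.2.2.2.1 = 0
    · rw [ht, zero_smul, add_zero] at c₁
      subst c₁
      exact Or.inl (simple_sy hσ rfl h₁)
    · refine Or.inr (Or.inl (eq_of_esrc h₂ ?_))
      have d₁ := congrArg (fun w => w.2.2.2.2.1) c₁
      have d₂ := congrArg (fun w => w.2.2.2.2.1) c₂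
      have d₃ := congrArg (fun w => w.2.2.2.2.1) c₃
      have d₄ := congrArg (fun w => w.2.2.2.2.1) c₄
      have f₂ := congrArg (fun w => w.2.2.2.1) c₂
      have f₄ := congrArg (fun w => w.2.2.2.1) c₄
      simp only [dX, dY, Prod.snd_add, Prod.fst_add, Prod.smul_mk, smul_eq_mul, mul_zero,
        add_zero] at d₁ d₂ d₃ d₄ f₂ f₄
      apply mul_left_cancel₀ ht
      simp only
      rw [← b₁]
      linear_combination (-1 : k) * d₁ - d₂ - d₃ - d₄ + (a₃ + w₃.1) * f₂ + (a₃ + w₃.1) * f₄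

theorem design_isSys (hσ : Sidon σ) :
    IsSys (esrc : Ed k F → Ed k F) (elb σ) (esnk σ ϑ) :=
  ⟨girth_xs hσ, girth_sy hσ, girth_yx hσ⟩

variable [Fintype k] [Fintype F] [DecidableEq F] [DecidableEq (Ed k F)]

theorem sum_src_fiber {M : Type*} [AddCommMonoid M] (f : Ed k F → M) (l : Fˣ) (a κ : k)
    (w : Pt k) :
    ∑ e with esrc e = esrc ((l, a, κ, w) : Ed k F), f e =
      ∑ t : k, f (l, a, κ, w + t • dX a κ) := by
  symm
  refine Finset.sum_bij (fun t _ => ((l, a, κ, w + t • dX a κ) : Ed k F)) ?_ ?_ ?_ ?_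
  · intro t _
    refine Finset.mem_filter.mpr ⟨Finset.mem_univ _, ?_⟩
    simp only [true_and, esrc, Prod.mk.injEq, Prod.fst_add]
    have : (t • dX a κ).1 = t := by simp [dX]
    rw [this, add_smul]
    abel
  · intro t _ t' _ h
    have := congrArg (fun e => e.2.2.2.1) h
    simpa [dX] using this
  · rintro ⟨l', a', κ', w'⟩ he
    obtain ⟨rfl, rfl, rfl, h⟩ := esrc_eq (Finset.mem_filter.mp he).2
    exact ⟨_, Finset.mem_univ _, by rw [← h]⟩
  · intro t _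
    rfl

theorem sum_snk_fiber {M : Type*} [AddCommMonoid M] (f : Ed k F → M) (l : Fˣ) (a κ : k)
    (w : Pt k) :
    ∑ e with esnk σ ϑ e = esnk σ ϑ ((l, a, κ * (ϑ (l * σ w) : kˣ), w) : Ed k F), f e =
      ∑ t : k, f (l, a, κ * (ϑ (l * σ (w + t • dY (a + w.1) κ)) : kˣ),
        w + t • dY (a + w.1) κ) := by
  symm
  refine Finset.sum_bij (fun t _ => ((l, a, κ * (ϑ (l * σ (w + t • dY (a + w.1) κ)) : kˣ),
        w + t • dY (a + w.1) κ) : Ed k F)) ?_ ?_ ?_ ?_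
  · intro t _
    have h1 : (w + t • dY (a + w.1) κ).1 = w.1 := by simp [dY]
    have h2 : (w + t • dY (a + w.1) κ).2.2.2.1 = w.2.2.2.1 + t := by simp [dY]
    refine Finset.mem_filter.mpr ⟨Finset.mem_univ _, ?_⟩
    simp only [true_and, esnk, elb, Prod.mk.injEq, h1, h2, Units.mul_inv_cancel_right]
    rw [add_smul]
    abel
  · intro t _ t' _ h
    have := congrArg (fun e => e.2.2.2.2.2.2.1) h
    simpa [dY] using this
  · rintro ⟨l', a', κ', w'⟩ he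
    obtain ⟨rfl, h1, h2, h⟩ := esnk_eq (Finset.mem_filter.mp he).2
    rw [Units.mul_inv_cancel_right] at h2
    rw [h1, h2] at h
    have h3 : w'.1 = w.1 := by rw [h]; simp [dY]
    rw [h3] at h1
    refine ⟨w'.2.2.2.1 - w.2.2.2.1, Finset.mem_univ _, ?_⟩
    rw [← h, ← h2, add_right_cancel h1, Units.inv_mul_cancel_right]
  · intro t _
    rfl

/-- coordinate idempotents -/
def eS (F : Type*) [Field F] [DecidableEq F] (s : Fˣ) : Module.End F (Fˣ → F) :=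
  (LinearMap.proj s : (Fˣ → F) →ₗ[F] F).smulRight (Pi.single s 1)

theorem sum_eS : ∑ s, eS F s = 1 := by
  refine LinearMap.ext fun f => funext fun s => ?_
  simp [eS, LinearMap.sum_apply, Pi.single_apply]

theorem design_flow (j : k →+* F) (hlin : ∀ w d : Pt k, ∃ u v : F, ∀ t : k,
      (σ (w + t • d) : F) = u + j t * v)
    (U : Submodule F (Fˣ → F))
    (hU : ∀ (ℓ : k → Fˣ) (u w : F), (∀ t, (ℓ t : F) = u + j t * w) →
      ∑ t, Pi.single (ℓ t) (1 : F) ∈ U)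
    (P : Module.End F (Fˣ → F)) (hP1 : ∀ f ∈ U, P f = f)
    (hP2 : ∀ g ∈ U, P (fun s => j (ϑ s : kˣ) * g s) = 0)
    (c : Fˣ → k → F) (φ : (Fˣ → F) →ₗ[F] F) :
    Flow (esrc : Ed k F → Ed k F) (elb σ) (esnk σ ϑ) (eS F) P (fun e =>
      φ.smulRight ((c e.1 e.2.2.2.2.2.2.2.2.2.2 * j e.2.2.1) • Pi.single (elb σ e) 1)) := by
  have hline : ∀ (l : Fˣ) (w d : Pt k),
      ∑ t : k, Pi.single (l * σ (w + t • d)) (1 : F) ∈ U := by
    intro l w d
    obtain ⟨u, v, h⟩ := hlin w d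
    refine hU _ (l * u) (l * v) fun t => ?_
    rw [Units.val_mul, h]
    ring
  refine ⟨?_, ?_, ?_⟩
  · intro e s
    refine LinearMap.ext fun f => ?_
    by_cases h : s = elb σ e
    · subst h
      simp [eS, smul_smul]
    · simp [eS, h]
  · intro x
    by_cases hx : ∃ e, esrc e = x
    · obtain ⟨⟨l, a, κ, w⟩, rfl⟩ := hx
      rw [sum_src_fiber]
      refine LinearMap.ext fun f => ?_
      apply hP1
      simp only [LinearMap.sum_apply, LinearMap.smulRight_apply, elb]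
      have : ∀ t : k, (w + t • dX a κ).2.2.2.2.2.2.2 = w.2.2.2.2.2.2.2 := by
        intro t; simp [dX]
      simp only [this, ← Finset.smul_sum]
      exact U.smul_mem _ (U.smul_mem _ (hline l w _))
    · push Not at hx
      rw [Finset.filter_false_of_mem (fun e _ => hx e)]
      simp
  · intro y
    by_cases hy : ∃ e, esnk σ ϑ e = y
    · obtain ⟨⟨l, a, κ₀, w⟩, rfl⟩ := hy
      obtain ⟨κ, rfl⟩ : ∃ κ : k, κ₀ = κ * (ϑ (l * σ w) : kˣ) :=
        ⟨κ₀ * ((ϑ (l * σ w))⁻¹ : kˣ), by rw [Units.inv_mul_cancel_right]⟩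
      rw [sum_snk_fiber]
      refine LinearMap.ext fun f => ?_
      have : ∀ t : k, (w + t • dY (a + w.1) κ).2.2.2.2.2.2.2 = w.2.2.2.2.2.2.2 := by
        intro t; simp [dY]
      have h2 := hP2 _ (U.smul_mem (φ f * (c l w.2.2.2.2.2.2.2 * j κ))
        (hline l w (dY (a + w.1) κ)))
      rw [Module.End.mul_apply, LinearMap.zero_apply, ← h2]
      congr 1
      funext s
      simp only [LinearMap.sum_apply, LinearMap.smulRight_apply, elb, this, Finset.sum_apply,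
        Pi.smul_apply, smul_eq_mul, Finset.mul_sum, map_mul]
      refine Finset.sum_congr rfl fun t _ => ?_
      by_cases h : s = l * σ (w + t • dY (a + w.1) κ)
      · rw [← h]; ring
      · simp [h]
    · push Not at hy
      rw [Finset.filter_false_of_mem (fun e _ => hy e)]
      simp

/-- the edge that is subdivided for the label `s` -/
def ecut (σ : Pt k → Fˣ) (s : Fˣ) : Ed k F := (s * (σ 0)⁻¹, 0, 1, 0)

theorem design_not_df (hσ : Sidon σ) (j : k →+* F) (hlin : ∀ w d : Pt k, ∃ u v : F, ∀ t : k,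
      (σ (w + t • d) : F) = u + j t * v)
    (U : Submodule F (Fˣ → F))
    (hU : ∀ (ℓ : k → Fˣ) (u w : F), (∀ t, (ℓ t : F) = u + j t * w) →
      ∑ t, Pi.single (ℓ t) (1 : F) ∈ U)
    (hU2 : ∀ f ∈ U, ∀ g ∈ U, (∀ s, f s = j (ϑ s : kˣ) * g s) → f = 0) :
    ¬ IsDedekindFiniteMonoid (MonoidAlgebra (Module.End F (Fˣ → F))
      (TriGroup (TT (CutEdge.src (cut := ecut σ) esrc) (CutEdge.lab (elb σ))
        (CutEdge.snk (esnk σ ϑ))))) := by
  let Θ : Module.End F (Fˣ → F) := LinearMap.pi fun s => j (ϑ s : kˣ) • LinearMap.proj s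
  have hdisj : Disjoint (U.map Θ) U := by
    rw [Submodule.disjoint_def]
    rintro _ ⟨g, hg, rfl⟩ hf
    exact hU2 _ hf g hg fun s => by simp [Θ]
  obtain ⟨C, hC1, hC2⟩ := hdisj.exists_isCompl
  let P : Module.End F (Fˣ → F) := U.projection C hC2.symm
  have hP1 : ∀ f ∈ U, P f = f := fun f hf => Submodule.projection_apply_of_mem_left _ hf
  have hP2 : ∀ g ∈ U, P (fun s => j (ϑ s : kˣ) * g s) = 0 := by
    intro g hg
    rw [Submodule.projection_apply_eq_zero_iff]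
    exact hC1 ⟨g, hg, by funext s; simp [Θ]⟩
  have hc : ∀ s, elb σ (ecut σ s) = s := fun s => by simp [elb, ecut]
  refine not_df_of_sys (design_isSys hσ) (ecut σ) hc (eS F) sum_eS P ?_ ?_ ?_
  · exact LinearMap.ext fun f => hP1 _ (Submodule.projection_apply_mem _ f)
  · intro s
    refine ⟨_, design_flow j hlin U hU P hP1 hP2
      (fun l _ => if l = s * (σ 0)⁻¹ then 1 else 0) (LinearMap.proj s), ?_, ?_⟩
    · simp only [hc]
      simp [ecut, eS]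
    · intro s' hs
      simp [ecut, hs]
  · refine ⟨_, design_flow j hlin U hU P hP1 hP2 (fun _ ε => j ε) (LinearMap.proj 1), ?_, ?_⟩
    · intro s
      simp [ecut]
    · refine ⟨(1, 0, 1, (0, 0, 0, 0, 0, 0, 0, 1)), fun h => ?_⟩
      have := congrFun (LinearMap.congr_fun h (fun _ => 1))
        (elb σ (1, 0, 1, (0, 0, 0, 0, 0, 0, 0, 1)))
      simp at this

end Vale.Agent.P194
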