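import Vale.Agent.P194.Exists
import Vale.Agent.P194.Corner

/-! The counterexample to direct finiteness. -/

namespace Vale.Agent.P194

universe u

theorem main (p : ℕ) (hp : p.Prime) :
    ∃ (G : Type) (_ : Group G), Group.IsFinitelyPresented G ∧
      ∀ (K : Type u) [Field K] [CharP K p],
        ∃ a b : MonoidAlgebra K G, a * b = 1 ∧ b * a ≠ 1 := by
  have : Fact p.Prime := ⟨hp⟩
  obtain ⟨k, F, _, _, _, _, _, _, σ, ϑ, -, h⟩ := exists_design p
  have : Finite (Module.End F (Fˣ → F)) :=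
    Finite.of_injective (fun f : Module.End F (Fˣ → F) => (f : (Fˣ → F) → (Fˣ → F)))
      DFunLike.coe_injective
  have : CharP (Module.End F (Fˣ → F)) p :=
    charP_of_injective_algebraMap (algebraMap F (Module.End F (Fˣ → F))).injective p
  obtain ⟨H, _, h₂⟩ := exists_field_of_ring p h
  rw [isDedekindFiniteMonoid_iff] at h₂
  push Not at h₂
  obtain ⟨a, b, hab, hba⟩ := h₂
  obtain ⟨G, _, hG, a', b', h₃, h₄⟩ := exists_fp a b hab hba
  refine ⟨G, inferInstance, hG, fun K _ _ => ?_⟩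
  let f := MonoidAlgebra.mapRingHom G (ZMod.castHom (dvd_refl p) K)
  have hf : Function.Injective f :=
    MonoidAlgebra.map_injective _ (ZMod.castHom (dvd_refl p) K).injective
  refine ⟨f a', f b', by rw [← map_mul, h₃, map_one], fun h₅ => h₄ (hf ?_)⟩
  rw [map_mul, h₅, map_one]

theorem not_all : ¬ ∀ (K : Type) [Field K] (G : Type) [Group G] (a b : MonoidAlgebra K G),
    a * b = 1 → b * a = 1 := by
  intro h
  obtain ⟨G, _, -, hG⟩ := main.{0} 2 Nat.prime_two
  obtain ⟨a, b, h₁, h₂⟩ := hG (ZMod 2)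
  exact h₂ (h _ G a b h₁)

end Vale.Agent.P194
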