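import Vale.Agent.P194.Tri

/-! Tripartite triangle systems and the subdivision of chosen edges. -/

namespace Vale.Agent.P194

variable {E X S Y : Type*}

/-- two maps out of an edge set describe a simple bipartite graph without four-cycles -/
structure Girth6 {U V : Type*} (f : E → U) (g : E → V) : Prop where
  simple : ∀ {e e'}, f e = f e' → g e = g e' → e = e'
  quad : ∀ {e₁ e₂ e₃ e₄}, f e₁ = f e₂ → g e₂ = g e₃ → f e₃ = f e₄ → g e₄ = g e₁ →
    e₁ = e₂ ∨ e₂ = e₃ ∨ e₃ = e₄ ∨ e₄ = e₁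

theorem Girth6.symm {U V : Type*} {f : E → U} {g : E → V} (h : Girth6 f g) : Girth6 g f where
  simple := fun h₁ h₂ => h.simple h₂ h₁
  quad := fun h₁ h₂ h₃ h₄ => by
    have := h.quad h₂ h₃ h₄ h₁
    tauto

theorem Girth6.quad' {U V : Type*} {f : E → U} {g : E → V} (h : Girth6 f g) {e₁ e₂ e₃ e₄ : E}
    (h₁ : f e₁ = f e₂) (h₂ : g e₂ = g e₃) (h₃ : f e₃ = f e₄) (h₄ : g e₄ = g e₁) :
    g e₁ = g e₂ ∨ f e₁ = f e₃ := by
  rcases h.quad h₁ h₂ h₃ h₄ with rfl | rfl | rfl | rfl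
  · exact Or.inl rfl
  · exact Or.inr h₁
  · exact Or.inl (h₄.symm.trans h₂.symm)
  · exact Or.inr h₃.symm

/-- a tripartite triangle system -/
structure IsSys (src : E → X) (lab : E → S) (snk : E → Y) : Prop where
  xs : Girth6 src lab
  sy : Girth6 lab snk
  yx : Girth6 snk src

/-- the cyclic triple set of a tripartite system -/
def TT (src : E → X) (lab : E → S) (snk : E → Y) (a b c : X ⊕ S ⊕ Y) : Prop :=
  ∃ e, (a = .inl (src e) ∧ b = .inr (.inl (lab e)) ∧ c = .inr (.inr (snk e))) ∨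
    (a = .inr (.inl (lab e)) ∧ b = .inr (.inr (snk e)) ∧ c = .inl (src e)) ∨
    (a = .inr (.inr (snk e)) ∧ b = .inl (src e) ∧ c = .inr (.inl (lab e)))

theorem IsSys.isTri {src : E → X} {lab : E → S} {snk : E → Y} (h : IsSys src lab snk) :
    IsTri (TT src lab snk) where
  cyc := by
    rintro a b c ⟨e, h | h | h⟩
    · exact ⟨e, Or.inr (Or.inl ⟨h.2.1, h.2.2, h.1⟩)⟩
    · exact ⟨e, Or.inr (Or.inr ⟨h.2.1, h.2.2, h.1⟩)⟩
    · exact ⟨e, Or.inl ⟨h.2.1, h.2.2, h.1⟩⟩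
  uniq := by
    rintro a b c c' ⟨e, ⟨rfl, rfl, rfl⟩ | ⟨rfl, rfl, rfl⟩ | ⟨rfl, rfl, rfl⟩⟩
      ⟨e', ⟨h₁, h₂, rfl⟩ | ⟨h₁, h₂, rfl⟩ | ⟨h₁, h₂, rfl⟩⟩ <;>
      simp only [Sum.inl.injEq, Sum.inr.injEq, reduceCtorEq] at h₁ h₂
    · rw [h.xs.simple h₁ h₂]
    · rw [h.sy.simple h₁ h₂]
    · rw [h.yx.simple h₁ h₂]
  quad := by
    rintro a a' a₁ a₁' b b₁ c c' ⟨e₁, ⟨rfl, rfl, rfl⟩ | ⟨rfl, rfl, rfl⟩ | ⟨rfl, rfl, rfl⟩⟩
      ⟨e₂, ⟨rfl, h₂, rfl⟩ | ⟨rfl, h₂, rfl⟩ | ⟨rfl, h₂, rfl⟩⟩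
      ⟨e₃, ⟨rfl, rfl, h₃⟩ | ⟨rfl, rfl, h₃⟩ | ⟨rfl, rfl, h₃⟩⟩ <;>
      simp only [Sum.inl.injEq, Sum.inr.injEq, reduceCtorEq] at h₂ h₃ <;>
      rintro ⟨e₄, ⟨rfl, h₄, h₅⟩ | ⟨rfl, h₄, h₅⟩ | ⟨rfl, h₄, h₅⟩⟩ <;>
      simp only [Sum.inl.injEq, Sum.inr.injEq, reduceCtorEq] at h₄ h₅ ⊢
    · exact h.sy.quad' h₂ h₅ h₄.symm h₃.symm |>.imp id fun h => h.trans h₄.symm
    · exact h.yx.quad' h₂ h₅ h₄.symm h₃.symm |>.imp id fun h => h.trans h₄.symm
    · exact h.xs.quad' h₂ h₅ h₄.symm h₃.symm |>.imp id fun h => h.trans h₄.symm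

/-- the edges after subdividing each edge `cut s` into a path of three edges -/
inductive CutEdge (cut : S → E)
  | old (e : E) (h : ∀ s, cut s ≠ e)
  | fst (s : S)
  | mid (s : S)
  | lst (s : S)

namespace CutEdge
variable {cut : S → E}

/-- new source map -/
def src (f : E → X) : CutEdge cut → X ⊕ S
  | old e _ => .inl (f e)
  | fst s => .inl (f (cut s))
  | mid s => .inr s
  | lst s => .inr s

/-- new label map -/
def lab (f : E → S) : CutEdge cut → Option S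
  | old e _ => some (f e)
  | fst s => some s
  | mid _ => none
  | lst s => some s

/-- new sink map -/
def snk (f : E → Y) : CutEdge cut → Y ⊕ S
  | old e _ => .inl (f e)
  | fst s => .inr s
  | mid s => .inr s
  | lst s => .inl (f (cut s))

/-- the old edge under a new edge -/
def base : CutEdge cut → E
  | old e _ => e
  | fst s => cut s
  | mid s => cut s
  | lst s => cut s

instance [Finite E] [Finite S] : Finite (CutEdge cut) := by
  let f : CutEdge cut → E ⊕ S ⊕ S ⊕ S := fun e => match e with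
    | old e _ => .inl e
    | fst s => .inr (.inl s)
    | mid s => .inr (.inr (.inl s))
    | lst s => .inr (.inr (.inr s))
  refine Finite.of_injective f ?_
  rintro (_ | _ | _ | _) (_ | _ | _ | _) h <;> simp_all [f]

end CutEdge

theorem IsSys.cut_xs {src : E → X} {lab : E → S} (h : Girth6 src lab)
    {cut : S → E} (hc : ∀ s, lab (cut s) = s) :
    Girth6 (CutEdge.src (cut := cut) src) (CutEdge.lab lab) where
  simple := by
    intro e e'
    have := h.simple (e := e.base) (e' := e'.base)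
    revert this
    rcases e with ⟨e, he⟩ | s | s | s <;> rcases e' with ⟨e', he'⟩ | s' | s' | s' <;>
      simp only [CutEdge.src, CutEdge.lab, CutEdge.base] <;> grind
  quad := by
    intro e₁ e₂ e₃ e₄
    have := h.quad (e₁ := e₁.base) (e₂ := e₂.base) (e₃ := e₃.base) (e₄ := e₄.base)
    revert this
    rcases e₁ with ⟨e₁, h₁⟩ | s₁ | s₁ | s₁ <;> rcases e₂ with ⟨e₂, h₂⟩ | s₂ | s₂ | s₂ <;>
      rcases e₃ with ⟨e₃, h₃⟩ | s₃ | s₃ | s₃ <;> rcases e₄ with ⟨e₄, h₄⟩ | s₄ | s₄ | s₄ <;>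
      simp only [CutEdge.src, CutEdge.lab, CutEdge.base] <;> grind

theorem IsSys.cut_sy {lab : E → S} {snk : E → Y} (h : Girth6 lab snk)
    {cut : S → E} (hc : ∀ s, lab (cut s) = s) :
    Girth6 (CutEdge.lab (cut := cut) lab) (CutEdge.snk snk) where
  simple := by
    intro e e'
    have := h.simple (e := e.base) (e' := e'.base)
    revert this
    rcases e with ⟨e, he⟩ | s | s | s <;> rcases e' with ⟨e', he'⟩ | s' | s' | s' <;>
      simp only [CutEdge.snk, CutEdge.lab, CutEdge.base] <;> grind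
  quad := by
    intro e₁ e₂ e₃ e₄
    have := h.quad (e₁ := e₁.base) (e₂ := e₂.base) (e₃ := e₃.base) (e₄ := e₄.base)
    revert this
    rcases e₁ with ⟨e₁, h₁⟩ | s₁ | s₁ | s₁ <;> rcases e₂ with ⟨e₂, h₂⟩ | s₂ | s₂ | s₂ <;>
      rcases e₃ with ⟨e₃, h₃⟩ | s₃ | s₃ | s₃ <;> rcases e₄ with ⟨e₄, h₄⟩ | s₄ | s₄ | s₄ <;>
      simp only [CutEdge.snk, CutEdge.lab, CutEdge.base] <;> grind

theorem IsSys.cut_yx {src : E → X} {lab : E → S} {snk : E → Y} (h : Girth6 snk src)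
    {cut : S → E} (hc : ∀ s, lab (cut s) = s) :
    Girth6 (CutEdge.snk (cut := cut) snk) (CutEdge.src src) where
  simple := by
    intro e e'
    have := h.simple (e := e.base) (e' := e'.base)
    revert this
    rcases e with ⟨e, he⟩ | s | s | s <;> rcases e' with ⟨e', he'⟩ | s' | s' | s' <;>
      simp only [CutEdge.snk, CutEdge.src, CutEdge.base] <;> grind
  quad := by
    intro e₁ e₂ e₃ e₄
    have := h.quad (e₁ := e₁.base) (e₂ := e₂.base) (e₃ := e₃.base) (e₄ := e₄.base)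
    have h12 := h.simple (e := e₁.base) (e' := e₂.base)
    have h23 := h.simple (e := e₂.base) (e' := e₃.base)
    have h34 := h.simple (e := e₃.base) (e' := e₄.base)
    have h41 := h.simple (e := e₄.base) (e' := e₁.base)
    have h13 := h.simple (e := e₁.base) (e' := e₃.base)
    have h24 := h.simple (e := e₂.base) (e' := e₄.base)
    revert this h12 h23 h34 h41 h13 h24
    rcases e₁ with ⟨e₁, h₁⟩ | s₁ | s₁ | s₁ <;> rcases e₂ with ⟨e₂, h₂⟩ | s₂ | s₂ | s₂ <;>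
      rcases e₃ with ⟨e₃, h₃⟩ | s₃ | s₃ | s₃ <;> rcases e₄ with ⟨e₄, h₄⟩ | s₄ | s₄ | s₄ <;>
      simp only [CutEdge.snk, CutEdge.src, CutEdge.base] <;> grind

theorem IsSys.cut {src : E → X} {lab : E → S} {snk : E → Y} (h : IsSys src lab snk)
    {cut : S → E} (hc : ∀ s, lab (cut s) = s) :
    IsSys (CutEdge.src (cut := cut) src) (CutEdge.lab lab) (CutEdge.snk snk) :=
  ⟨IsSys.cut_xs h.xs hc, IsSys.cut_sy h.sy hc, IsSys.cut_yx h.yx hc⟩

end Vale.Agent.P194
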