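import Mathlib

/-! Triangle presentations and their confluent rewriting system. -/

namespace Vale.Agent.P194

open Relation

variable {A : Type*}

/-- A cyclically closed set of triples in which two letters determine the third and whose
link graph has no four-cycle. -/
structure IsTri (T : A → A → A → Prop) : Prop where
  cyc : ∀ {a b c}, T a b c → T b c a
  uniq : ∀ {a b c c'}, T a b c → T a b c' → c = c'
  quad : ∀ {a a' a₁ a₁' b b₁ c c'}, T a b c → T a' b c' → T a₁ b₁ c → T a₁' b₁ c' →
    c = c' ∨ b = b₁

namespace IsTri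
variable {T : A → A → A → Prop} (h : IsTri T)
include h

theorem cyc2 {a b c : A} (t : T a b c) : T c a b := h.cyc (h.cyc t)

theorem uniq1 {a a' b c : A} (t : T a b c) (t' : T a' b c) : a = a' :=
  h.uniq (h.cyc t) (h.cyc t')

theorem uniq2 {a b b' c : A} (t : T a b c) (t' : T a b' c) : b = b' :=
  h.uniq (h.cyc2 t) (h.cyc2 t')

end IsTri

/-- The two-letter rewriting rules. -/
inductive Rule (T : A → A → A → Prop) : A × Bool → A × Bool → List (A × Bool) → Prop
  | canP (a : A) : Rule T (a, true) (a, false) []
  | canN (a : A) : Rule T (a, false) (a, true) []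
  | pos {a b c : A} : T a b c → Rule T (a, true) (b, true) [(c, false)]
  | neg {a b c : A} : T a b c → Rule T (b, false) (a, false) [(c, true)]
  | swap {a a' b c c' : A} : T a b c → T a' b c' → c ≠ c' →
      Rule T (c, false) (c', true) [(a, true), (a', false)]

/-- One rewriting step somewhere in a word. -/
inductive Step (T : A → A → A → Prop) : List (A × Bool) → List (A × Bool) → Prop
  | head {u v : A × Bool} {r : List (A × Bool)} (w : List (A × Bool)) :
      Rule T u v r → Step T (u :: v :: w) (r ++ w)
  | tail (u : A × Bool) {w w' : List (A × Bool)} : Step T w w' → Step T (u :: w) (u :: w')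

variable {T : A → A → A → Prop}

theorem Step.head' {u v : A × Bool} {r w x : List (A × Bool)} (h : Rule T u v r)
    (hx : x = r ++ w) : Step T (u :: v :: w) x := hx ▸ Step.head w h

theorem Step.append_left (l : List (A × Bool)) {w w' : List (A × Bool)} (h : Step T w w') :
    Step T (l ++ w) (l ++ w') := by
  induction l with
  | nil => exact h
  | cons u l ih => exact Step.tail u ih

theorem Step.append_right {w w' : List (A × Bool)} (h : Step T w w') (l : List (A × Bool)) :
    Step T (w ++ l) (w' ++ l) := by
  induction h with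
  | head w hr => exact Step.head' hr (by simp)
  | tail u _ ih => exact Step.tail u ih

theorem steps_cons (u : A × Bool) {w w' : List (A × Bool)} (h : ReflTransGen (Step T) w w') :
    ReflTransGen (Step T) (u :: w) (u :: w') := by
  induction h with
  | refl => exact ReflTransGen.refl
  | tail _ hs ih => exact ih.tail (Step.tail u hs)

/-- number of positive letters -/
def numPos : List (A × Bool) → ℕ
  | [] => 0
  | (_, true) :: w => numPos w + 1
  | (_, false) :: w => numPos w

/-- number of pairs of a negative letter standing before a positive letter -/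
def numInv : List (A × Bool) → ℕ
  | [] => 0
  | (_, true) :: w => numInv w
  | (_, false) :: w => numInv w + numPos w

theorem Step.measure {w w' : List (A × Bool)} (h : Step T w w') :
    w'.length < w.length ∨
      (w'.length = w.length ∧ numPos w' = numPos w ∧ numInv w' < numInv w) := by
  induction h with
  | head w hr =>
    cases hr <;> simp [numPos, numInv]
  | tail u _ ih =>
    rcases ih with ih | ⟨h1, h2, h3⟩
    · left; simpa using ih
    · right
      rcases u with ⟨a, _ | _⟩ <;> simp [numPos, numInv, h1, h2, h3]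

theorem Step.length_le {w w' : List (A × Bool)} (h : Step T w w') : w'.length ≤ w.length := by
  rcases h.measure with h | h <;> omega

theorem step_wf : WellFounded (fun w' w : List (A × Bool) => Step T w w') := by
  have hw : WellFounded (InvImage (Prod.Lex (· < ·) (· < ·))
      (fun w : List (A × Bool) => (w.length, numInv w))) :=
    InvImage.wf _ (WellFounded.prod_lex Nat.lt_wfRel.wf Nat.lt_wfRel.wf)
  refine Subrelation.wf ?_ hw
  intro w' w h
  rcases Step.measure h with h | ⟨h1, _, h3⟩
  · exact Prod.Lex.left _ _ h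
  · show Prod.Lex _ _ (w'.length, numInv w') (w.length, numInv w)
    rw [h1]
    exact Prod.Lex.right _ h3

theorem newman {α : Type*} {r : α → α → Prop} (hwf : WellFounded (fun b a => r a b))
    (hloc : ∀ a b c, r a b → r a c → Join (ReflTransGen r) b c) (a : α) :
    ∀ b c, ReflTransGen r a b → ReflTransGen r a c → Join (ReflTransGen r) b c := by
  induction a using hwf.induction with
  | _ a ih =>
    intro b c hb hc
    rcases hb.cases_head with rfl | ⟨b₁, hb₁, hb⟩
    · exact ⟨c, hc, ReflTransGen.refl⟩
    rcases hc.cases_head with rfl | ⟨c₁, hc₁, hc⟩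
    · exact ⟨b, ReflTransGen.refl, ReflTransGen.head hb₁ hb⟩
    obtain ⟨d, hd₁, hd₂⟩ := hloc a b₁ c₁ hb₁ hc₁
    obtain ⟨e, he₁, he₂⟩ := ih b₁ hb₁ b d hb hd₁
    obtain ⟨f, hf₁, hf₂⟩ := ih c₁ hc₁ e c (hd₂.trans he₂) hc
    exact ⟨f, he₁.trans hf₁, hf₂⟩

theorem Rule.det (h : IsTri T) {u v : A × Bool} {r r' : List (A × Bool)}
    (h₁ : Rule T u v r) (h₂ : Rule T u v r') : r = r' := by
  cases h₁ with
  | canP a => cases h₂; rfl
  | canN a =>
    cases h₂ with
    | canN => rfl
    | swap _ _ hne => exact absurd rfl hne
  | pos t =>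
    cases h₂ with
    | pos t' => rw [h.uniq t t']
  | neg t =>
    cases h₂ with
    | neg t' => rw [h.uniq t t']
  | swap t₁ t₂ hne =>
    cases h₂ with
    | canN => exact absurd rfl hne
    | swap t₁' t₂' _ =>
      rcases h.quad t₁ t₂ t₁' t₂' with hc | hb
      · exact absurd hc hne
      · subst hb
        rw [h.uniq1 t₁ t₁', h.uniq1 t₂ t₂']

private theorem one {u v : A × Bool} {r w x : List (A × Bool)} (h : Rule T u v r)
    (hx : x = r ++ w) : ReflTransGen (Step T) (u :: v :: w) x :=
  ReflTransGen.single (Step.head' h hx)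

theorem Rule.crit (h : IsTri T) {u v x : A × Bool} {r r' : List (A × Bool)}
    (h₁ : Rule T u v r) (h₂ : Rule T v x r') (w : List (A × Bool)) :
    Join (ReflTransGen (Step T)) (r ++ x :: w) (u :: (r' ++ w)) := by
  cases h₁ with
  | canP a =>
    cases h₂ with
    | canN => exact ⟨_, ReflTransGen.refl, ReflTransGen.refl⟩
    | neg t => exact ⟨_, ReflTransGen.refl, one (Rule.pos (h.cyc t)) rfl⟩
    | swap t₁ t₂ hne =>
      refine ⟨_, ReflTransGen.refl, ?_⟩
      exact (one (Rule.pos (h.cyc2 t₁)) rfl).trans (one (Rule.neg t₂) rfl)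
  | canN a =>
    cases h₂ with
    | canP => exact ⟨_, ReflTransGen.refl, ReflTransGen.refl⟩
    | pos t => exact ⟨_, ReflTransGen.refl, one (Rule.neg (h.cyc2 t)) rfl⟩
  | @pos a b c t =>
    cases h₂ with
    | canP => exact ⟨_, one (Rule.neg (h.cyc t)) rfl, ReflTransGen.refl⟩
    | @pos _ d e t' =>
      by_cases hcd : c = d
      · subst hcd
        have : a = e := h.uniq (h.cyc t) t'
        subst this
        exact ⟨w, one (Rule.canN _) rfl, one (Rule.canP _) rfl⟩
      · exact ⟨_, one (Rule.swap t (h.cyc2 t') hcd) rfl, ReflTransGen.refl⟩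
  | @neg a b c t =>
    cases h₂ with
    | canN => exact ⟨_, one (Rule.pos (h.cyc2 t)) rfl, ReflTransGen.refl⟩
    | @neg d _ e t' =>
      by_cases hbe : b = e
      · subst hbe
        have : c = d := h.uniq1 (h.cyc2 t) t'
        subst this
        exact ⟨w, one (Rule.canP _) rfl, one (Rule.canN _) rfl⟩
      · exact ⟨_, ReflTransGen.refl, one (Rule.swap (h.cyc2 t) t' hbe) rfl⟩
    | @swap d d' e _ f t₁ t₂ hne =>
      by_cases hbd : b = d
      · subst hbd
        have : c = e := h.uniq2 (h.cyc t) t₁
        subst this
        exact ⟨_, one (Rule.pos (h.cyc t₂)) rfl, one (Rule.canN _) rfl⟩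
      · refine ⟨(c, true) :: (f, true) :: w, ReflTransGen.refl, ?_⟩
        refine (one (Rule.swap (h.cyc2 t) (h.cyc t₁) hbd) rfl).trans ?_
        exact steps_cons _ (one (Rule.neg t₂) rfl)
  | @swap a a' b c c' t₁ t₂ hne =>
    cases h₂ with
    | canP =>
      refine ⟨(c, false) :: w, ?_, ReflTransGen.refl⟩
      refine (steps_cons _ (one (Rule.neg (h.cyc2 t₂)) rfl)).trans ?_
      exact one (Rule.pos t₁) rfl
    | @pos _ d e t =>
      by_cases had : a' = d
      · subst had
        have : b = e := h.uniq (h.cyc2 t₂) t
        subst this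
        refine ⟨(a, true) :: w, steps_cons _ (one (Rule.canN _) rfl), ?_⟩
        exact one (Rule.neg (h.cyc t₁)) rfl
      · refine ⟨(c, false) :: (e, false) :: w, ?_, ReflTransGen.refl⟩
        refine (steps_cons _ (one (Rule.swap (h.cyc t₂) (h.cyc2 t) had) rfl)).trans ?_
        exact one (Rule.pos t₁) rfl

theorem join_cons (u : A × Bool) {w w' : List (A × Bool)}
    (h : Join (ReflTransGen (Step T)) w w') : Join (ReflTransGen (Step T)) (u :: w) (u :: w') := by
  obtain ⟨d, h₁, h₂⟩ := h
  exact ⟨u :: d, steps_cons u h₁, steps_cons u h₂⟩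

theorem head_tail (h : IsTri T) {u v : A × Bool} {r w y : List (A × Bool)} (hr : Rule T u v r)
    (hs : Step T (v :: w) y) : Join (ReflTransGen (Step T)) (r ++ w) (u :: y) := by
  cases hs with
  | head w' hr' => exact hr.crit h hr' w'
  | tail _ hs' =>
    exact ⟨_, ReflTransGen.single (hs'.append_left r), ReflTransGen.single (Step.head _ hr)⟩

theorem local_confl (h : IsTri T) {w x : List (A × Bool)} (hx : Step T w x) :
    ∀ y, Step T w y → Join (ReflTransGen (Step T)) x y := by
  induction hx with
  | head w hr =>
    intro y hy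
    cases hy with
    | head _ hr' => rw [hr.det h hr']; exact ⟨_, ReflTransGen.refl, ReflTransGen.refl⟩
    | tail _ hs => exact head_tail h hr hs
  | tail u hs ih =>
    intro y hy
    cases hy with
    | head _ hr' =>
      obtain ⟨d, h₁, h₂⟩ := head_tail h hr' hs
      exact ⟨d, h₂, h₁⟩
    | tail _ hs' => exact join_cons u (ih _ hs')

theorem confl (h : IsTri T) {w x y : List (A × Bool)} (hx : ReflTransGen (Step T) w x)
    (hy : ReflTransGen (Step T) w y) : Join (ReflTransGen (Step T)) x y :=
  newman step_wf (fun _ _ _ h₁ h₂ => local_confl h h₁ _ h₂) w x y hx hy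

theorem join_of_eqvGen (h : IsTri T) {w w' : List (A × Bool)} (he : EqvGen (Step T) w w') :
    Join (ReflTransGen (Step T)) w w' := by
  induction he with
  | rel _ _ hs => exact ⟨_, ReflTransGen.single hs, ReflTransGen.refl⟩
  | refl _ => exact ⟨_, ReflTransGen.refl, ReflTransGen.refl⟩
  | symm _ _ _ ih => obtain ⟨d, h₁, h₂⟩ := ih; exact ⟨d, h₂, h₁⟩
  | trans _ _ _ _ _ ih₁ ih₂ =>
    obtain ⟨d, h₁, h₂⟩ := ih₁
    obtain ⟨e, h₃, h₄⟩ := ih₂
    obtain ⟨f, h₅, h₆⟩ := confl h h₂ h₃
    exact ⟨f, h₁.trans h₅, h₄.trans h₆⟩

/-- The relators of the triangle presentation. -/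
def triRels (T : A → A → A → Prop) : Set (FreeGroup A) :=
  {r | ∃ a b c, T a b c ∧ r = FreeGroup.of a * FreeGroup.of b * FreeGroup.of c}

/-- The group of the triangle presentation. -/
abbrev TriGroup (T : A → A → A → Prop) := PresentedGroup (triRels T)

/-- The group element a signed letter stands for. -/
def letter (T : A → A → A → Prop) (u : A × Bool) : TriGroup T :=
  cond u.2 (PresentedGroup.of u.1) (PresentedGroup.of u.1)⁻¹

/-- The group element a word stands for. -/
def ev (T : A → A → A → Prop) (w : List (A × Bool)) : TriGroup T := (w.map (letter T)).prod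

@[simp] theorem letter_true (a : A) : letter T (a, true) = PresentedGroup.of a := rfl
@[simp] theorem letter_false (a : A) : letter T (a, false) = (PresentedGroup.of a)⁻¹ := rfl
@[simp] theorem ev_nil : ev T [] = 1 := rfl
@[simp] theorem ev_cons (u : A × Bool) (w : List (A × Bool)) :
    ev T (u :: w) = letter T u * ev T w := by simp [ev]
@[simp] theorem ev_append (w w' : List (A × Bool)) : ev T (w ++ w') = ev T w * ev T w' := by
  simp [ev]

theorem tri_rel {a b c : A} (t : T a b c) :
    (PresentedGroup.of a * PresentedGroup.of b * PresentedGroup.of c : TriGroup T) = 1 := by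
  have : PresentedGroup.mk (triRels T) (FreeGroup.of a * FreeGroup.of b * FreeGroup.of c) = 1 :=
    PresentedGroup.one_of_mem ⟨a, b, c, t, rfl⟩
  simpa [PresentedGroup.of] using this

theorem Rule.ev_eq {u v : A × Bool} {r : List (A × Bool)} (h : Rule T u v r) :
    letter T u * letter T v = ev T r := by
  cases h with
  | canP a => simp
  | canN a => simp
  | pos t => simpa [← mul_eq_one_iff_eq_inv] using tri_rel t
  | @neg a b c t =>
    have := tri_rel t
    simp only [letter_false, ev_cons, letter_true, ev_nil, mul_one]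
    rw [← mul_inv_rev, eq_comm, eq_inv_iff_mul_eq_one]
    have h2 := mul_eq_one_comm.mp this
    exact h2
  | @swap a a' b c c' t t' _ =>
    have h1 := eq_inv_of_mul_eq_one_right (tri_rel t)
    have h2 := eq_inv_of_mul_eq_one_right (tri_rel t')
    simp only [letter_false, ev_cons, letter_true, ev_nil, mul_one]
    rw [h1, h2]
    group

theorem Step.ev_eq {w w' : List (A × Bool)} (h : Step T w w') : ev T w = ev T w' := by
  induction h with
  | head w hr => simp [← mul_assoc, hr.ev_eq]
  | tail u _ ih => simp [ih]

theorem steps_ev_eq {w w' : List (A × Bool)} (h : ReflTransGen (Step T) w w') :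
    ev T w = ev T w' := by
  induction h with
  | refl => rfl
  | tail _ hs ih => exact ih.trans hs.ev_eq

/-- prepending a letter, on classes of words -/
def consQ (T : A → A → A → Prop) (u : A × Bool) : Quot (Step T) → Quot (Step T) :=
  Quot.map (fun w => u :: w) (fun _ _ h => Step.tail u h)

/-- prepending a generator, as a permutation of the classes of words -/
def permQ (T : A → A → A → Prop) (a : A) : Equiv.Perm (Quot (Step T)) where
  toFun := consQ T (a, true)
  invFun := consQ T (a, false)
  left_inv := by
    rintro ⟨w⟩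
    exact Quot.sound (Step.head' (Rule.canN a) rfl)
  right_inv := by
    rintro ⟨w⟩
    exact Quot.sound (Step.head' (Rule.canP a) rfl)

theorem permQ_rel : ∀ r ∈ triRels T, FreeGroup.lift (permQ T) r = 1 := by
  rintro _ ⟨a, b, c, t, rfl⟩
  simp only [map_mul, FreeGroup.lift_apply_of]
  ext ⟨w⟩
  have h1 : Quot.mk (Step T) ((a, true) :: (b, true) :: (c, true) :: w) =
      Quot.mk (Step T) ((c, false) :: (c, true) :: w) := Quot.sound (Step.head' (Rule.pos t) rfl)
  have h2 : Quot.mk (Step T) ((c, false) :: (c, true) :: w) = Quot.mk (Step T) w :=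
    Quot.sound (Step.head' (Rule.canN c) rfl)
  exact h1.trans h2

theorem toPerm_ev (w w' : List (A × Bool)) :
    PresentedGroup.toGroup (permQ_rel (T := T)) (ev T w) (Quot.mk _ w') =
      Quot.mk _ (w ++ w') := by
  induction w with
  | nil => simp
  | cons u w ih =>
    rcases u with ⟨a, _ | _⟩
    · simp only [ev_cons, letter_false, map_mul, map_inv, PresentedGroup.toGroup.of,
        Equiv.Perm.mul_apply, ih]
      rfl
    · simp only [ev_cons, letter_true, map_mul, PresentedGroup.toGroup.of,
        Equiv.Perm.mul_apply, ih]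
      rfl

theorem join_of_ev_eq (h : IsTri T) {w w' : List (A × Bool)} (he : ev T w = ev T w') :
    Join (ReflTransGen (Step T)) w w' := by
  have h1 := toPerm_ev (T := T) w []
  have h2 := toPerm_ev (T := T) w' []
  rw [he, h2] at h1
  simp only [List.append_nil] at h1
  exact join_of_eqvGen h (Quot.eqvGen_exact h1.symm)

theorem steps_single {u : A × Bool} {w : List (A × Bool)} (h : ReflTransGen (Step T) [u] w) :
    w = [u] := by
  rcases h.cases_head with rfl | ⟨x, hx, _⟩
  · rfl
  · cases hx with
    | tail _ hs => cases hs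

theorem of_injective (h : IsTri T) :
    Function.Injective (PresentedGroup.of : A → TriGroup T) := by
  intro a a' he
  have : ev T [(a, true)] = ev T [(a', true)] := by simpa using he
  obtain ⟨d, h₁, h₂⟩ := join_of_ev_eq h this
  have := (steps_single h₁).symm.trans (steps_single h₂)
  simpa using this

end Vale.Agent.P194
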